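import Vale.Agent.Lib.P328.helper26.C221c

/-!
P328: the three-row inequality for the 3 x 6 tables with row sums (2, 2, 1), for the
nondecreasing column sums listed below: the list of the tables and a decomposition into
squares, checked by evaluation.
-/

namespace Vale.Agent.Lib.P328.Small

open Finset
open Vale.Agent.Lib.P328.RP

/-- The tables with row sums (2, 2, 1) and column sums (0, 1, 1, 1, 1, 1), as triples of codes. -/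
def tabs_221_6 : List (Fin 3 → Fin 6 × Fin 6) :=
  [![(1, 2), (3, 4), (5, 5)],
   ![(1, 2), (3, 5), (4, 4)],
   ![(1, 2), (4, 5), (3, 3)],
   ![(1, 3), (2, 4), (5, 5)],
   ![(1, 3), (2, 5), (4, 4)],
   ![(1, 3), (4, 5), (2, 2)],
   ![(1, 4), (2, 3), (5, 5)],
   ![(1, 4), (2, 5), (3, 3)],
   ![(1, 4), (3, 5), (2, 2)],
   ![(1, 5), (2, 3), (4, 4)],
   ![(1, 5), (2, 4), (3, 3)],
   ![(1, 5), (3, 4), (2, 2)],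
   ![(2, 3), (1, 4), (5, 5)],
   ![(2, 3), (1, 5), (4, 4)],
   ![(2, 3), (4, 5), (1, 1)],
   ![(2, 4), (1, 3), (5, 5)],
   ![(2, 4), (1, 5), (3, 3)],
   ![(2, 4), (3, 5), (1, 1)],
   ![(2, 5), (1, 3), (4, 4)],
   ![(2, 5), (1, 4), (3, 3)],
   ![(2, 5), (3, 4), (1, 1)],
   ![(3, 4), (1, 2), (5, 5)],
   ![(3, 4), (1, 5), (2, 2)],
   ![(3, 4), (2, 5), (1, 1)],
   ![(3, 5), (1, 2), (4, 4)],
   ![(3, 5), (1, 4), (2, 2)],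
   ![(3, 5), (2, 4), (1, 1)],
   ![(4, 5), (1, 2), (3, 3)],
   ![(4, 5), (1, 3), (2, 2)],
   ![(4, 5), (2, 3), (1, 1)]]

/-- An integer vector of the decomposition into squares. -/
def vec_221_6_0 : List ℤ :=
  [0, 0, 0, 0, 0, 0, 0, 18, 3, 3, 3, 0, 3, 3, 3, 0, 3, 3, 0, 3, 0, 0, 0, 0, 0, 0, 0, 0, 0, 0, 0, 0, 0, 0, 0, 0, 0, -5, -5, 0, -5, 0, 0, 0, 0, 0, 0, 0, 0, 0, 0, 0, 0, 0, 0, 0, 0, -5, 0, 0, -5, 0, -5]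

/-- An integer vector of the decomposition into squares. -/
def vec_221_6_1 : List ℤ :=
  [0, 0, 0, 0, 0, 0, 0, 0, 21, 3, 3, 0, 3, 3, 3, 0, 3, 3, 0, 3, 0, 0, 0, 0, 0, 0, 0, 0, 0, 0, 0, 0, 0, 0, -6, -6, 0, 1, 1, 0, -5, 0, 0, 0, 0, 0, 0, 0, 0, 0, 0, 0, 0, -6, 0, 0, 0, 1, 0, 0, -5, 0, -5]

/-- An integer vector of the decomposition into squares. -/
def vec_221_6_2 : List ℤ :=
  [0, 0, 0, 0, 0, 0, 0, 0, 0, 24, 3, 0, 3, 3, 3, 0, 3, 3, 0, 3, 0, 0, 0, 0, 0, 0, 0, 0, 0, 0, 0, 0, 0, -7, 1, -6, 0, 1, -6, 0, 2, 0, 0, 0, 0, 0, 0, 0, 0, 0, 0, 0, 0, -6, 0, 0, 0, -6, 0, 0, 2, 0, -5]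

/-- An integer vector of the decomposition into squares. -/
def vec_221_6_3 : List ℤ :=
  [0, 0, 0, 0, 0, 0, 0, 0, 0, 0, 27, 0, 3, 3, 3, 0, 3, 3, 0, 3, 0, 0, 0, 0, 0, 0, 0, 0, 0, 0, 0, 0, 0, -7, -7, 2, 0, -7, 2, 0, 2, 0, 0, 0, 0, 0, 0, 0, 0, 0, 0, 0, 0, -6, 0, 0, 0, -6, 0, 0, -6, 0, 3]

/-- An integer vector of the decomposition into squares. -/
def vec_221_6_4 : List ℤ :=
  [0, 0, 0, 0, 0, 0, 0, 0, 0, 0, 0, 0, 30, 3, 3, 0, 3, 3, 0, 3, 0, 0, 0, 0, 0, 0, 0, 0, 0, 0, -9, -9, 0, 2, 2, 2, 0, 2, 2, 0, -7, 0, 0, 0, 0, 0, 0, 0, -9, 0, 0, 0, 0, 3, 0, 0, 0, 3, 0, 0, -6, 0, -6]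

/-- An integer vector of the decomposition into squares. -/
def vec_221_6_5 : List ℤ :=
  [0, 0, 0, 0, 0, 0, 0, 0, 0, 0, 0, 0, 0, 33, 3, 0, 3, 3, 0, 3, 0, 0, 0, 0, 0, 0, 0, 0, 0, -10, 1, -9, 0, 2, 2, 2, 0, 2, -8, 0, 3, 0, 0, 0, 0, 0, 0, 0, -9, 0, 0, 0, 0, 3, 0, 0, 0, -7, 0, 0, 4, 0, -6]

/-- An integer vector of the decomposition into squares. -/
def vec_221_6_6 : List ℤ :=
  [0, 0, 0, 0, 0, 0, 0, 0, 0, 0, 0, 0, 0, 0, 36, 0, 3, 3, 0, 3, 0, 0, 0, 0, 0, 0, 0, 0, 0, -10, -10, 2, 0, 2, 2, 2, 0, -9, 3, 0, 3, 0, 0, 0, 0, 0, 0, 0, -9, 0, 0, 0, 0, 3, 0, 0, 0, -7, 0, 0, -7, 0, 5]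

/-- An integer vector of the decomposition into squares. -/
def vec_221_6_7 : List ℤ :=
  [0, 0, 0, 0, 0, 0, 0, 0, 0, 0, 0, 0, 0, 0, 0, 0, 39, 3, 0, 3, 0, 0, 0, 0, 0, 0, 0, 0, -12, 2, 2, -10, 0, 2, 2, -10, 0, 3, 3, 0, 3, 0, 0, 0, 0, 0, 0, 0, -9, 0, 0, 0, 0, -9, 0, 0, 0, 5, 0, 0, 5, 0, -7]

/-- An integer vector of the decomposition into squares. -/
def vec_221_6_8 : List ℤ :=
  [0, 0, 0, 0, 0, 0, 0, 0, 0, 0, 0, 0, 0, 0, 0, 0, 0, 42, 0, 3, 0, 0, 0, 0, 0, 0, 0, 0, -12, 2, -11, 3, 0, 2, -11, 3, 0, 3, 3, 0, 3, 0, 0, 0, 0, 0, 0, 0, -9, 0, 0, 0, 0, -9, 0, 0, 0, 5, 0, 0, -8, 0, 6]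

/-- An integer vector of the decomposition into squares. -/
def vec_221_6_9 : List ℤ :=
  [0, 0, 0, 0, 0, 0, 0, 0, 0, 0, 0, 0, 0, 0, 0, 0, 0, 0, 0, 15, 0, 0, 0, 0, 0, 0, 0, 0, -4, -4, 1, 1, 0, -4, 1, 1, 0, 1, 1, 0, 1, 0, 0, 0, 0, 0, 0, 0, -3, 0, 0, 0, 0, -3, 0, 0, 0, -3, 0, 0, 2, 0, 2]

/-- An integer vector of the decomposition into squares. -/
def vec_221_6_10 : List ℤ :=
  [0, 0, 0, 0, 0, 0, 0, 0, 0, 0, 0, 0, 0, 0, 0, 0, 0, 0, 0, 0, 0, 0, 0, 0, 0, 0, 0, 0, 42, 7, 7, 7, 0, 7, 7, 7, 0, 12, 12, 0, 12, 0, 0, 0, 0, 0, 0, 0, -9, 0, 0, 0, 0, -9, 0, 0, 0, -14, 0, 0, -14, 0, -14]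

/-- An integer vector of the decomposition into squares. -/
def vec_221_6_11 : List ℤ :=
  [0, 0, 0, 0, 0, 0, 0, 0, 0, 0, 0, 0, 0, 0, 0, 0, 0, 0, 0, 0, 0, 0, 0, 0, 0, 0, 0, 0, 0, 49, 7, 7, 0, 7, 13, 13, 0, 6, 6, 0, 12, 0, 0, 0, 0, 0, 0, 0, -9, 0, 0, 0, 0, -15, 0, 0, 0, -8, 0, 0, -14, 0, -14]

/-- An integer vector of the decomposition into squares. -/
def vec_221_6_12 : List ℤ :=
  [0, 0, 0, 0, 0, 0, 0, 0, 0, 0, 0, 0, 0, 0, 0, 0, 0, 0, 0, 0, 0, 0, 0, 0, 0, 0, 0, 0, 0, 0, 56, 7, 0, 14, 6, 13, 0, 6, 13, 0, 5, 0, 0, 0, 0, 0, 0, 0, -9, 0, 0, 0, 0, -15, 0, 0, 0, -15, 0, 0, -7, 0, -14]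

/-- An integer vector of the decomposition into squares. -/
def vec_221_6_13 : List ℤ :=
  [0, 0, 0, 0, 0, 0, 0, 0, 0, 0, 0, 0, 0, 0, 0, 0, 0, 0, 0, 0, 0, 0, 0, 0, 0, 0, 0, 0, 0, 0, 0, 63, 0, 14, 14, 5, 0, 14, 5, 0, 5, 0, 0, 0, 0, 0, 0, 0, -9, 0, 0, 0, 0, -15, 0, 0, 0, -15, 0, 0, -15, 0, -6]

/-- An integer vector of the decomposition into squares. -/
def vec_221_6_14 : List ℤ :=
  [0, 0, 0, 0, 0, 0, 0, 0, 0, 0, 0, 0, 0, 0, 0, 0, 0, 0, 0, 0, 0, 0, 0, 0, 0, 0, 0, 0, 0, 0, 0, 0, 0, 112, 4, 4, 0, 4, 4, 0, 22, 0, 0, 0, 0, 0, 0, 0, -27, 0, 0, 0, 0, -3, 0, 0, 0, -3, 0, 0, -21, 0, -21]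

/-- An integer vector of the decomposition into squares. -/
def vec_221_6_15 : List ℤ :=
  [0, 0, 0, 0, 0, 0, 0, 0, 0, 0, 0, 0, 0, 0, 0, 0, 0, 0, 0, 0, 0, 0, 0, 0, 0, 0, 0, 0, 0, 0, 0, 0, 0, 0, 348, 12, 0, 12, 68, 0, 10, 0, 0, 0, 0, 0, 0, 0, -81, 0, 0, 0, 0, -9, 0, 0, 0, -65, 0, 0, -7, 0, -63]

/-- An integer vector of the decomposition into squares. -/
def vec_221_6_16 : List ℤ :=
  [0, 0, 0, 0, 0, 0, 0, 0, 0, 0, 0, 0, 0, 0, 0, 0, 0, 0, 0, 0, 0, 0, 0, 0, 0, 0, 0, 0, 0, 0, 0, 0, 0, 0, 0, 360, 0, 70, 10, 0, 10, 0, 0, 0, 0, 0, 0, 0, -81, 0, 0, 0, 0, -9, 0, 0, 0, -65, 0, 0, -65, 0, -5]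

/-- An integer vector of the decomposition into squares. -/
def vec_221_6_17 : List ℤ :=
  [0, 0, 0, 0, 0, 0, 0, 0, 0, 0, 0, 0, 0, 0, 0, 0, 0, 0, 0, 0, 0, 0, 0, 0, 0, 0, 0, 0, 0, 0, 0, 0, 0, 0, 0, 0, 0, 430, 10, 0, 10, 0, 0, 0, 0, 0, 0, 0, -81, 0, 0, 0, 0, -81, 0, 0, 0, 7, 0, 0, 7, 0, -77]

/-- An integer vector of the decomposition into squares. -/
def vec_221_6_18 : List ℤ :=
  [0, 0, 0, 0, 0, 0, 0, 0, 0, 0, 0, 0, 0, 0, 0, 0, 0, 0, 0, 0, 0, 0, 0, 0, 0, 0, 0, 0, 0, 0, 0, 0, 0, 0, 0, 0, 0, 0, 440, 0, 10, 0, 0, 0, 0, 0, 0, 0, -81, 0, 0, 0, 0, -81, 0, 0, 0, 7, 0, 0, -79, 0, 9]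

/-- An integer vector of the decomposition into squares. -/
def vec_221_6_19 : List ℤ :=
  [0, 0, 0, 0, 0, 0, 0, 0, 0, 0, 0, 0, 0, 0, 0, 0, 0, 0, 0, 0, 0, 0, 0, 0, 0, 0, 0, 0, 0, 0, 0, 0, 0, 0, 0, 0, 0, 0, 0, 0, 50, 0, 0, 0, 0, 0, 0, 0, -9, 0, 0, 0, 0, -9, 0, 0, 0, -9, 0, 0, 1, 0, 1]

/-- An integer vector of the decomposition into squares. -/
def vec_221_6_20 : List ℤ :=
  [0, 0, 0, 0, 0, 0, 0, 0, 0, 0, 0, 0, 0, 0, 0, 0, 0, 0, 0, 0, 0, 0, 0, 0, 0, 0, 0, 0, 0, 0, 0, 0, 0, 0, 0, 0, 0, 0, 0, 0, 0, 0, 0, 0, 0, 0, 0, 0, 13, 0, 0, 0, 0, 3, 0, 0, 0, 3, 0, 0, 3, 0, 3]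

/-- An integer vector of the decomposition into squares. -/
def vec_221_6_21 : List ℤ :=
  [0, 0, 0, 0, 0, 0, 0, 0, 0, 0, 0, 0, 0, 0, 0, 0, 0, 0, 0, 0, 0, 0, 0, 0, 0, 0, 0, 0, 0, 0, 0, 0, 0, 0, 0, 0, 0, 0, 0, 0, 0, 0, 0, 0, 0, 0, 0, 0, 0, 0, 0, 0, 0, 16, 0, 0, 0, 3, 0, 0, 3, 0, 3]

/-- An integer vector of the decomposition into squares. -/
def vec_221_6_22 : List ℤ :=
  [0, 0, 0, 0, 0, 0, 0, 0, 0, 0, 0, 0, 0, 0, 0, 0, 0, 0, 0, 0, 0, 0, 0, 0, 0, 0, 0, 0, 0, 0, 0, 0, 0, 0, 0, 0, 0, 0, 0, 0, 0, 0, 0, 0, 0, 0, 0, 0, 0, 0, 0, 0, 0, 0, 0, 0, 0, 19, 0, 0, 3, 0, 3]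

/-- An integer vector of the decomposition into squares. -/
def vec_221_6_23 : List ℤ :=
  [0, 0, 0, 0, 0, 0, 0, 0, 0, 0, 0, 0, 0, 0, 0, 0, 0, 0, 0, 0, 0, 0, 0, 0, 0, 0, 0, 0, 0, 0, 0, 0, 0, 0, 0, 0, 0, 0, 0, 0, 0, 0, 0, 0, 0, 0, 0, 0, 0, 0, 0, 0, 0, 0, 0, 0, 0, 0, 0, 0, 22, 0, 3]

/-- An integer vector of the decomposition into squares. -/
def vec_221_6_24 : List ℤ :=
  [0, 0, 0, 0, 0, 0, 0, 0, 0, 0, 0, 0, 0, 0, 0, 0, 0, 0, 0, 0, 0, 0, 0, 0, 0, 0, 0, 0, 0, 0, 0, 0, 0, 0, 0, 0, 0, 0, 0, 0, 0, 0, 0, 0, 0, 0, 0, 0, 0, 0, 0, 0, 0, 0, 0, 0, 0, 0, 0, 0, 0, 0, 1]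

/-- Weights and integer vectors of a decomposition into squares. -/
def vecs_221_6 : List (ℤ × List ℤ) :=
  [(9961011060, vec_221_6_0),
   (7115007900, vec_221_6_1),
   (5336255925, vec_221_6_2),
   (4150421275, vec_221_6_3),
   (3320337020, vec_221_6_4),
   (2716639380, vec_221_6_5),
   (2263866150, vec_221_6_6),
   (1915579050, vec_221_6_7),
   (1641924900, vec_221_6_8),
   (12807014220, vec_221_6_9),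
   (1423001580, vec_221_6_10),
   (1016429700, vec_221_6_11),
   (762322275, vec_221_6_12),
   (592917325, vec_221_6_13),
   (169404950, vec_221_6_14),
   (17524650, vec_221_6_15),
   (16356340, vec_221_6_16),
   (11031020, vec_221_6_17),
   (10529610, vec_221_6_18),
   (814991814, vec_221_6_19),
   (33101205984, vec_221_6_20),
   (20688253740, vec_221_6_21),
   (14155120980, vec_221_6_22),
   (10294633440, vec_221_6_23),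
   (4889950884000, vec_221_6_24)]

theorem rows_221_6 (g : Fin 3 → (Fin 6 → ℕ) → ℝ)
    (h0 : ∀ k, ∑ x : CT 3 6 ![2, 2, 1] ![0, 1, 1, 1, 1, 1], g k (x.1 k) = 0) :
    ∑ x : CT 3 6 ![2, 2, 1] ![0, 1, 1, 1, 1, 1], (∑ k, g k (x.1 k)) ^ 2
      ≤ 2 * ∑ x : CT 3 6 ![2, 2, 1] ![0, 1, 1, 1, 1, 1], ∑ k, g k (x.1 k) ^ 2 :=
  rows_of_cert ![2, 2, 1] (by decide) ![0, 1, 1, 1, 1, 1] tabs_221_6 (by decide +kernel) (by decide +kernel)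
    (by decide +kernel) 896490995400 59766066360 (by norm_num) vecs_221_6 (by decide +kernel)
    (by decide +kernel) g h0

end Vale.Agent.Lib.P328.Small
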