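import Vale.Agent.Lib.P328.helper26.S222a

/-!
P328: the inequality for one function of a row, for the 3 x 6 tables with all row sums two,
for the nondecreasing column sums listed below: the list of the tables and a decomposition
into squares, checked by evaluation.
-/

namespace Vale.Agent.Lib.P328.Small

open Finset
open Vale.Agent.Lib.P328.RP

/-- The tables with row sums two and column sums (0, 1, 1, 1, 1, 2), as triples of codes. -/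
def tabs_222_9 : List (Fin 3 → Fin 6 × Fin 6) :=
  [![(1, 2), (3, 4), (5, 5)],
   ![(1, 2), (3, 5), (4, 5)],
   ![(1, 2), (4, 5), (3, 5)],
   ![(1, 2), (5, 5), (3, 4)],
   ![(1, 3), (2, 4), (5, 5)],
   ![(1, 3), (2, 5), (4, 5)],
   ![(1, 3), (4, 5), (2, 5)],
   ![(1, 3), (5, 5), (2, 4)],
   ![(1, 4), (2, 3), (5, 5)],
   ![(1, 4), (2, 5), (3, 5)],
   ![(1, 4), (3, 5), (2, 5)],
   ![(1, 4), (5, 5), (2, 3)],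
   ![(1, 5), (2, 3), (4, 5)],
   ![(1, 5), (2, 4), (3, 5)],
   ![(1, 5), (2, 5), (3, 4)],
   ![(1, 5), (3, 4), (2, 5)],
   ![(1, 5), (3, 5), (2, 4)],
   ![(1, 5), (4, 5), (2, 3)],
   ![(2, 3), (1, 4), (5, 5)],
   ![(2, 3), (1, 5), (4, 5)],
   ![(2, 3), (4, 5), (1, 5)],
   ![(2, 3), (5, 5), (1, 4)],
   ![(2, 4), (1, 3), (5, 5)],
   ![(2, 4), (1, 5), (3, 5)],
   ![(2, 4), (3, 5), (1, 5)],
   ![(2, 4), (5, 5), (1, 3)],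
   ![(2, 5), (1, 3), (4, 5)],
   ![(2, 5), (1, 4), (3, 5)],
   ![(2, 5), (1, 5), (3, 4)],
   ![(2, 5), (3, 4), (1, 5)],
   ![(2, 5), (3, 5), (1, 4)],
   ![(2, 5), (4, 5), (1, 3)],
   ![(3, 4), (1, 2), (5, 5)],
   ![(3, 4), (1, 5), (2, 5)],
   ![(3, 4), (2, 5), (1, 5)],
   ![(3, 4), (5, 5), (1, 2)],
   ![(3, 5), (1, 2), (4, 5)],
   ![(3, 5), (1, 4), (2, 5)],
   ![(3, 5), (1, 5), (2, 4)],
   ![(3, 5), (2, 4), (1, 5)],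
   ![(3, 5), (2, 5), (1, 4)],
   ![(3, 5), (4, 5), (1, 2)],
   ![(4, 5), (1, 2), (3, 5)],
   ![(4, 5), (1, 3), (2, 5)],
   ![(4, 5), (1, 5), (2, 3)],
   ![(4, 5), (2, 3), (1, 5)],
   ![(4, 5), (2, 5), (1, 3)],
   ![(4, 5), (3, 5), (1, 2)],
   ![(5, 5), (1, 2), (3, 4)],
   ![(5, 5), (1, 3), (2, 4)],
   ![(5, 5), (1, 4), (2, 3)],
   ![(5, 5), (2, 3), (1, 4)],
   ![(5, 5), (2, 4), (1, 3)],
   ![(5, 5), (3, 4), (1, 2)]]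

/-- Weights and integer vectors of a decomposition into squares. -/
def vecs_222_9 : List (ℤ × List ℤ) :=
  [(1570646, [0, 0, 0, 0, 0, 0, 0, 58, 4, 4, 6, 0, 4, 4, 6, 0, -23, -21, 0, -21, -21]),
   (1367982, [0, 0, 0, 0, 0, 0, 0, 0, 62, 4, 6, 0, 4, -25, -23, 0, 6, 8, 0, -21, -21]),
   (1202166, [0, 0, 0, 0, 0, 0, 0, 0, 0, 66, 6, 0, -27, 6, -23, 0, 6, -23, 0, 10, -21]),
   (24844764, [0, 0, 0, 0, 0, 0, 0, 0, 0, 0, 18, 0, -4, -4, -3, 0, -4, -3, 0, -3, 3]),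
   (4711938, [0, 0, 0, 0, 0, 0, 0, 0, 0, 0, 0, 0, 29, 2, -3, 0, 2, -3, 0, -12, -15]),
   (455994, [0, 0, 0, 0, 0, 0, 0, 0, 0, 0, 0, 0, 0, 93, -9, 0, 6, -38, 0, -7, -45]),
   (2698740, [0, 0, 0, 0, 0, 0, 0, 0, 0, 0, 0, 0, 0, 0, 49, 0, -12, -17, 0, -17, -3]),
   (1602018, [0, 0, 0, 0, 0, 0, 0, 0, 0, 0, 0, 0, 0, 0, 0, 0, 47, -11, 0, -11, -25]),
   (6230070, [0, 0, 0, 0, 0, 0, 0, 0, 0, 0, 0, 0, 0, 0, 0, 0, 0, 28, 0, -19, -9]),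
   (2635319610, [0, 0, 0, 0, 0, 0, 0, 0, 0, 0, 0, 0, 0, 0, 0, 0, 0, 0, 0, 1, -1])]

theorem single_222_9 (s : (Fin 6 → ℕ) → ℝ)
    (h0 : ∑ x : CT 3 6 (fun _ => 2) ![0, 1, 1, 1, 1, 2], s (x.1 0) = 0) :
    2 * ∑ x : CT 3 6 (fun _ => 2) ![0, 1, 1, 1, 1, 2], s (x.1 0) * s (x.1 1)
      ≤ ∑ x : CT 3 6 (fun _ => 2) ![0, 1, 1, 1, 1, 2], s (x.1 0) ^ 2 :=
  single_of_cert ![0, 1, 1, 1, 1, 2] tabs_222_9 (by decide +kernel) (by decide +kernel)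
    (by decide +kernel) 1229815818 22774367 (by norm_num) vecs_222_9 (by decide +kernel)
    (by decide +kernel) s h0

/-- The tables with row sums two and column sums (1, 1, 1, 1, 1, 1), as triples of codes. -/
def tabs_222_10 : List (Fin 3 → Fin 6 × Fin 6) :=
  [![(0, 1), (2, 3), (4, 5)],
   ![(0, 1), (2, 4), (3, 5)],
   ![(0, 1), (2, 5), (3, 4)],
   ![(0, 1), (3, 4), (2, 5)],
   ![(0, 1), (3, 5), (2, 4)],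
   ![(0, 1), (4, 5), (2, 3)],
   ![(0, 2), (1, 3), (4, 5)],
   ![(0, 2), (1, 4), (3, 5)],
   ![(0, 2), (1, 5), (3, 4)],
   ![(0, 2), (3, 4), (1, 5)],
   ![(0, 2), (3, 5), (1, 4)],
   ![(0, 2), (4, 5), (1, 3)],
   ![(0, 3), (1, 2), (4, 5)],
   ![(0, 3), (1, 4), (2, 5)],
   ![(0, 3), (1, 5), (2, 4)],
   ![(0, 3), (2, 4), (1, 5)],
   ![(0, 3), (2, 5), (1, 4)],
   ![(0, 3), (4, 5), (1, 2)],
   ![(0, 4), (1, 2), (3, 5)],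
   ![(0, 4), (1, 3), (2, 5)],
   ![(0, 4), (1, 5), (2, 3)],
   ![(0, 4), (2, 3), (1, 5)],
   ![(0, 4), (2, 5), (1, 3)],
   ![(0, 4), (3, 5), (1, 2)],
   ![(0, 5), (1, 2), (3, 4)],
   ![(0, 5), (1, 3), (2, 4)],
   ![(0, 5), (1, 4), (2, 3)],
   ![(0, 5), (2, 3), (1, 4)],
   ![(0, 5), (2, 4), (1, 3)],
   ![(0, 5), (3, 4), (1, 2)],
   ![(1, 2), (0, 3), (4, 5)],
   ![(1, 2), (0, 4), (3, 5)],
   ![(1, 2), (0, 5), (3, 4)],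
   ![(1, 2), (3, 4), (0, 5)],
   ![(1, 2), (3, 5), (0, 4)],
   ![(1, 2), (4, 5), (0, 3)],
   ![(1, 3), (0, 2), (4, 5)],
   ![(1, 3), (0, 4), (2, 5)],
   ![(1, 3), (0, 5), (2, 4)],
   ![(1, 3), (2, 4), (0, 5)],
   ![(1, 3), (2, 5), (0, 4)],
   ![(1, 3), (4, 5), (0, 2)],
   ![(1, 4), (0, 2), (3, 5)],
   ![(1, 4), (0, 3), (2, 5)],
   ![(1, 4), (0, 5), (2, 3)],
   ![(1, 4), (2, 3), (0, 5)],
   ![(1, 4), (2, 5), (0, 3)],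
   ![(1, 4), (3, 5), (0, 2)],
   ![(1, 5), (0, 2), (3, 4)],
   ![(1, 5), (0, 3), (2, 4)],
   ![(1, 5), (0, 4), (2, 3)],
   ![(1, 5), (2, 3), (0, 4)],
   ![(1, 5), (2, 4), (0, 3)],
   ![(1, 5), (3, 4), (0, 2)],
   ![(2, 3), (0, 1), (4, 5)],
   ![(2, 3), (0, 4), (1, 5)],
   ![(2, 3), (0, 5), (1, 4)],
   ![(2, 3), (1, 4), (0, 5)],
   ![(2, 3), (1, 5), (0, 4)],
   ![(2, 3), (4, 5), (0, 1)],
   ![(2, 4), (0, 1), (3, 5)],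
   ![(2, 4), (0, 3), (1, 5)],
   ![(2, 4), (0, 5), (1, 3)],
   ![(2, 4), (1, 3), (0, 5)],
   ![(2, 4), (1, 5), (0, 3)],
   ![(2, 4), (3, 5), (0, 1)],
   ![(2, 5), (0, 1), (3, 4)],
   ![(2, 5), (0, 3), (1, 4)],
   ![(2, 5), (0, 4), (1, 3)],
   ![(2, 5), (1, 3), (0, 4)],
   ![(2, 5), (1, 4), (0, 3)],
   ![(2, 5), (3, 4), (0, 1)],
   ![(3, 4), (0, 1), (2, 5)],
   ![(3, 4), (0, 2), (1, 5)],
   ![(3, 4), (0, 5), (1, 2)],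
   ![(3, 4), (1, 2), (0, 5)],
   ![(3, 4), (1, 5), (0, 2)],
   ![(3, 4), (2, 5), (0, 1)],
   ![(3, 5), (0, 1), (2, 4)],
   ![(3, 5), (0, 2), (1, 4)],
   ![(3, 5), (0, 4), (1, 2)],
   ![(3, 5), (1, 2), (0, 4)],
   ![(3, 5), (1, 4), (0, 2)],
   ![(3, 5), (2, 4), (0, 1)],
   ![(4, 5), (0, 1), (2, 3)],
   ![(4, 5), (0, 2), (1, 3)],
   ![(4, 5), (0, 3), (1, 2)],
   ![(4, 5), (1, 2), (0, 3)],
   ![(4, 5), (1, 3), (0, 2)],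
   ![(4, 5), (2, 3), (0, 1)]]

/-- Weights and integer vectors of a decomposition into squares. -/
def vecs_222_10 : List (ℤ × List ℤ) :=
  [(46142811, [0, 16, 1, 1, 1, 1, 0, 1, 1, 1, 1, 0, -4, -4, -4, 0, -4, -4, 0, -4, 0]),
   (4523805, [0, 0, 51, 3, 3, 3, 0, 3, -13, -13, -13, 0, 4, 4, 4, 0, -12, -12, 0, -12, 0]),
   (4021160, [0, 0, 0, 54, 3, 3, 0, -14, 4, -13, -13, 0, 4, -13, -13, 0, 5, 5, 0, -12, 0]),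
   (3597880, [0, 0, 0, 0, 57, 3, 0, -14, -14, 5, -13, 0, -14, 5, -13, 0, 5, -13, 0, 6, 0]),
   (12952368, [0, 0, 0, 0, 0, 30, 0, -7, -7, -7, 3, 0, -7, -7, 3, 0, -7, 3, 0, 3, 0]),
   (6310128, [0, 0, 0, 0, 0, 0, 0, 39, -1, -1, -1, 0, -1, -1, -1, 0, -11, -11, 0, -11, 0]),
   (415140, [0, 0, 0, 0, 0, 0, 0, 0, 152, -4, -4, 0, -4, -43, -43, 0, -5, -5, 0, -44, 0]),
   (437580, [0, 0, 0, 0, 0, 0, 0, 0, 0, 148, -4, 0, -42, -5, -43, 0, -5, -43, 0, -6, 0]),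
   (16628040, [0, 0, 0, 0, 0, 0, 0, 0, 0, 0, 24, 0, -7, -7, -1, 0, -7, -1, 0, -1, 0]),
   (47325960, [0, 0, 0, 0, 0, 0, 0, 0, 0, 0, 0, 0, 13, -2, -2, 0, -2, -2, 0, -5, 0]),
   (2581416, [0, 0, 0, 0, 0, 0, 0, 0, 0, 0, 0, 0, 0, 55, -10, 0, -10, -23, 0, -12, 0]),
   (33558408, [0, 0, 0, 0, 0, 0, 0, 0, 0, 0, 0, 0, 0, 0, 15, 0, -7, -4, 0, -4, 0]),
   (1476569952, [0, 0, 0, 0, 0, 0, 0, 0, 0, 0, 0, 0, 0, 0, 0, 0, 2, -1, 0, -1, 0]),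
   (4429709856, [0, 0, 0, 0, 0, 0, 0, 0, 0, 0, 0, 0, 0, 0, 0, 0, 0, 1, 0, -1, 0])]

theorem single_222_10 (s : (Fin 6 → ℕ) → ℝ)
    (h0 : ∑ x : CT 3 6 (fun _ => 2) ![1, 1, 1, 1, 1, 1], s (x.1 0) = 0) :
    2 * ∑ x : CT 3 6 (fun _ => 2) ![1, 1, 1, 1, 1, 1], s (x.1 0) * s (x.1 1)
      ≤ ∑ x : CT 3 6 (fun _ => 2) ![1, 1, 1, 1, 1, 1], s (x.1 0) ^ 2 :=
  single_of_cert ![1, 1, 1, 1, 1, 1] tabs_222_10 (by decide +kernel) (by decide +kernel)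
    (by decide +kernel) 1845712440 20507916 (by norm_num) vecs_222_10 (by decide +kernel)
    (by decide +kernel) s h0

end Vale.Agent.Lib.P328.Small
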