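import Mathlib
import Vale.Agent.Lib.P328.helper26.S222b
import Vale.Agent.Lib.P328.helper26.C221d
import Vale.Agent.Lib.P328.helper23.RowsPerm
import Vale.Agent.Lib.P328.helper23.RowsSingle
import Vale.Agent.Lib.P328.helper30.ColReduce

/-!
P328: the three-row inequality (row form) for all 3 × 6 tables with nondecreasing column sums
and row sums in `{1, 2}` of which at least two are equal to two.

The classes with row sums 2, 2, 2 and 2, 2, 1 come from the explicit decompositions into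
squares of the modules `S222a`, `S222b`, `C221a`, `C221b`, `C221c`, `C221d`; the row sums
2, 1, 2 and 1, 2, 2 follow by permuting the rows; a class with no table is trivial.
-/

namespace Vale.Agent.Lib.P328.Small

open Finset
open Vale.Agent.Lib.P328.RP

/-- The nondecreasing sextuples of natural numbers with sum six. -/
theorem mono_six_cases (a b c d e f : ℕ) (h1 : a ≤ b) (h2 : b ≤ c) (h3 : c ≤ d) (h4 : d ≤ e)
    (h5 : e ≤ f) (hs : a + b + c + d + e + f = 6) :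
    (a = 0 ∧ b = 0 ∧ c = 0 ∧ d = 0 ∧ e = 0 ∧ f = 6) ∨
    (a = 0 ∧ b = 0 ∧ c = 0 ∧ d = 0 ∧ e = 1 ∧ f = 5) ∨
    (a = 0 ∧ b = 0 ∧ c = 0 ∧ d = 0 ∧ e = 2 ∧ f = 4) ∨
    (a = 0 ∧ b = 0 ∧ c = 0 ∧ d = 0 ∧ e = 3 ∧ f = 3) ∨
    (a = 0 ∧ b = 0 ∧ c = 0 ∧ d = 1 ∧ e = 1 ∧ f = 4) ∨
    (a = 0 ∧ b = 0 ∧ c = 0 ∧ d = 1 ∧ e = 2 ∧ f = 3) ∨
    (a = 0 ∧ b = 0 ∧ c = 0 ∧ d = 2 ∧ e = 2 ∧ f = 2) ∨
    (a = 0 ∧ b = 0 ∧ c = 1 ∧ d = 1 ∧ e = 1 ∧ f = 3) ∨
    (a = 0 ∧ b = 0 ∧ c = 1 ∧ d = 1 ∧ e = 2 ∧ f = 2) ∨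
    (a = 0 ∧ b = 1 ∧ c = 1 ∧ d = 1 ∧ e = 1 ∧ f = 2) ∨
    (a = 1 ∧ b = 1 ∧ c = 1 ∧ d = 1 ∧ e = 1 ∧ f = 1) := by
  have ha : a ≤ 1 := by omega
  have hb : b ≤ 1 := by omega
  have hc : c ≤ 1 := by omega
  have hd : d ≤ 2 := by omega
  have he : e ≤ 3 := by omega
  obtain rfl : f = 6 - (a + b + c + d + e) := by omega
  interval_cases a <;> interval_cases b <;> interval_cases c <;> interval_cases d <;>
    interval_cases e <;> first | (exfalso; omega) | simp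

/-- The nondecreasing sextuples of natural numbers with sum five. -/
theorem mono_five_cases (a b c d e f : ℕ) (h1 : a ≤ b) (h2 : b ≤ c) (h3 : c ≤ d) (h4 : d ≤ e)
    (h5 : e ≤ f) (hs : a + b + c + d + e + f = 5) :
    (a = 0 ∧ b = 0 ∧ c = 0 ∧ d = 0 ∧ e = 0 ∧ f = 5) ∨
    (a = 0 ∧ b = 0 ∧ c = 0 ∧ d = 0 ∧ e = 1 ∧ f = 4) ∨
    (a = 0 ∧ b = 0 ∧ c = 0 ∧ d = 0 ∧ e = 2 ∧ f = 3) ∨
    (a = 0 ∧ b = 0 ∧ c = 0 ∧ d = 1 ∧ e = 1 ∧ f = 3) ∨
    (a = 0 ∧ b = 0 ∧ c = 0 ∧ d = 1 ∧ e = 2 ∧ f = 2) ∨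
    (a = 0 ∧ b = 0 ∧ c = 1 ∧ d = 1 ∧ e = 1 ∧ f = 2) ∨
    (a = 0 ∧ b = 1 ∧ c = 1 ∧ d = 1 ∧ e = 1 ∧ f = 1) := by
  have ha : a = 0 := by omega
  have hb : b ≤ 1 := by omega
  have hc : c ≤ 1 := by omega
  have hd : d ≤ 1 := by omega
  have he : e ≤ 2 := by omega
  subst ha
  obtain rfl : f = 5 - (0 + b + c + d + e) := by omega
  interval_cases b <;> interval_cases c <;> interval_cases d <;>
    interval_cases e <;> first | (exfalso; omega) | simp

/-- A vector on six columns is determined by its six entries. -/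
theorem vec6_eq (c : Fin 6 → ℕ) (a0 a1 a2 a3 a4 a5 : ℕ)
    (h : c 0 = a0 ∧ c 1 = a1 ∧ c 2 = a2 ∧ c 3 = a3 ∧ c 4 = a4 ∧ c 5 = a5) :
    c = ![a0, a1, a2, a3, a4, a5] := by
  obtain ⟨e0, e1, e2, e3, e4, e5⟩ := h
  funext j
  fin_cases j
  · exact e0
  · exact e1
  · exact e2
  · exact e3
  · exact e4
  · exact e5

/-- The consecutive inequalities and the sum of a nondecreasing vector on six columns. -/
theorem mono_facts (c : Fin 6 → ℕ) (hc : Monotone c) :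
    c 0 ≤ c 1 ∧ c 1 ≤ c 2 ∧ c 2 ≤ c 3 ∧ c 3 ≤ c 4 ∧ c 4 ≤ c 5
      ∧ ∑ j, c j = c 0 + c 1 + c 2 + c 3 + c 4 + c 5 := by
  refine ⟨hc (by decide), hc (by decide), hc (by decide), hc (by decide), hc (by decide), ?_⟩
  rw [Fin.sum_univ_six]

/-- No table when the totals of the margins differ. -/
theorem isEmpty_of_sum_ne (r : Fin 3 → ℕ) (c : Fin 6 → ℕ) (h : ∑ j, c j ≠ ∑ i, r i) :
    IsEmpty (CT 3 6 r c) :=
  ⟨fun x => h (H30.sum_col_eq_sum_row x)⟩

/-- The inequality for one function of a row, for all 3 × 6 tables with all row sums two and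
nondecreasing column sums. -/
theorem single_222 (c : Fin 6 → ℕ) (hc : Monotone c) (s : (Fin 6 → ℕ) → ℝ)
    (h0 : ∑ x : CT 3 6 (fun _ => 2) c, s (x.1 0) = 0) :
    2 * ∑ x : CT 3 6 (fun _ => 2) c, s (x.1 0) * s (x.1 1)
      ≤ ∑ x : CT 3 6 (fun _ => 2) c, s (x.1 0) ^ 2 := by
  by_cases hsum : ∑ j, c j = 6
  · obtain ⟨h1, h2, h3, h4, h5, h6⟩ := mono_facts c hc
    rw [h6] at hsum
    rcases mono_six_cases _ _ _ _ _ _ h1 h2 h3 h4 h5 hsum with h | h | h | h | h | h | h | h | h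
      | h | h
    · obtain rfl := vec6_eq c _ _ _ _ _ _ h
      exact single_222_0 s h0
    · obtain rfl := vec6_eq c _ _ _ _ _ _ h
      exact single_222_1 s h0
    · obtain rfl := vec6_eq c _ _ _ _ _ _ h
      exact single_222_2 s h0
    · obtain rfl := vec6_eq c _ _ _ _ _ _ h
      exact single_222_3 s h0
    · obtain rfl := vec6_eq c _ _ _ _ _ _ h
      exact single_222_4 s h0
    · obtain rfl := vec6_eq c _ _ _ _ _ _ h
      exact single_222_5 s h0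
    · obtain rfl := vec6_eq c _ _ _ _ _ _ h
      exact single_222_6 s h0
    · obtain rfl := vec6_eq c _ _ _ _ _ _ h
      exact single_222_7 s h0
    · obtain rfl := vec6_eq c _ _ _ _ _ _ h
      exact single_222_8 s h0
    · obtain rfl := vec6_eq c _ _ _ _ _ _ h
      exact single_222_9 s h0
    · obtain rfl := vec6_eq c _ _ _ _ _ _ h
      exact single_222_10 s h0
  · have hE : IsEmpty (CT 3 6 (fun _ => 2) c) := by
      refine isEmpty_of_sum_ne _ c ?_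
      rw [Fin.sum_univ_three]
      exact hsum
    rw [Finset.univ_eq_empty, Finset.sum_empty, Finset.sum_empty, mul_zero]

/-- The three-row inequality for all 3 × 6 tables with row sums 2, 2, 1 and nondecreasing
column sums. -/
theorem rows_221 (c : Fin 6 → ℕ) (hc : Monotone c) (g : Fin 3 → (Fin 6 → ℕ) → ℝ)
    (h0 : ∀ k, ∑ x : CT 3 6 ![2, 2, 1] c, g k (x.1 k) = 0) :
    ∑ x : CT 3 6 ![2, 2, 1] c, (∑ k, g k (x.1 k)) ^ 2
      ≤ 2 * ∑ x : CT 3 6 ![2, 2, 1] c, ∑ k, g k (x.1 k) ^ 2 := by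
  by_cases hsum : ∑ j, c j = 5
  · obtain ⟨h1, h2, h3, h4, h5, h6⟩ := mono_facts c hc
    rw [h6] at hsum
    rcases mono_five_cases _ _ _ _ _ _ h1 h2 h3 h4 h5 hsum with h | h | h | h | h | h | h
    · obtain rfl := vec6_eq c _ _ _ _ _ _ h
      exact rows_221_0 g h0
    · obtain rfl := vec6_eq c _ _ _ _ _ _ h
      exact rows_221_1 g h0
    · obtain rfl := vec6_eq c _ _ _ _ _ _ h
      exact rows_221_2 g h0
    · obtain rfl := vec6_eq c _ _ _ _ _ _ h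
      exact rows_221_3 g h0
    · obtain rfl := vec6_eq c _ _ _ _ _ _ h
      exact rows_221_4 g h0
    · obtain rfl := vec6_eq c _ _ _ _ _ _ h
      exact rows_221_5 g h0
    · obtain rfl := vec6_eq c _ _ _ _ _ _ h
      exact rows_221_6 g h0
  · have hE : IsEmpty (CT 3 6 ![2, 2, 1] c) := by
      refine isEmpty_of_sum_ne _ c ?_
      rw [Fin.sum_univ_three]
      exact hsum
    exact H30.rowForm_of_isEmpty hE g h0

/-- **Six sorted columns, row sums in `{1, 2}` with at least two equal to two.**  The row form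
of the three-row inequality. -/
theorem rows_le_two6 (r : Fin 3 → ℕ) (hr : ∀ k, r k = 1 ∨ r k = 2)
    (hr2 : ∀ a b : Fin 3, a ≠ b → 2 ≤ r a ∨ 2 ≤ r b)
    (c6 : Fin 6 → ℕ) (hc : Monotone c6) (g : Fin 3 → (Fin 6 → ℕ) → ℝ)
    (h0 : ∀ k, ∑ x : CT 3 6 r c6, g k (x.1 k) = 0) :
    ∑ x : CT 3 6 r c6, (∑ k, g k (x.1 k)) ^ 2 ≤ 2 * ∑ x : CT 3 6 r c6, ∑ k, g k (x.1 k) ^ 2 := by
  have key : ∀ a0 a1 a2 : ℕ, r 0 = a0 → r 1 = a1 → r 2 = a2 → r = ![a0, a1, a2] := by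
    intro a0 a1 a2 e0 e1 e2
    funext k
    fin_cases k
    · exact e0
    · exact e1
    · exact e2
  have h01 := hr2 0 1 (by decide)
  have h02 := hr2 0 2 (by decide)
  have h12 := hr2 1 2 (by decide)
  rcases hr 0 with e0 | e0 <;> rcases hr 1 with e1 | e1 <;> rcases hr 2 with e2 | e2
  · omega
  · omega
  · omega
  · -- (1, 2, 2)
    obtain rfl := key _ _ _ e0 e1 e2
    refine rows_perm ![1, 2, 2] c6 (Equiv.swap 0 2) ?_ g h0
    have e : (![1, 2, 2] : Fin 3 → ℕ) ∘ (Equiv.swap (0 : Fin 3) 2) = ![2, 2, 1] := by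
      funext k
      fin_cases k <;> rfl
    rw [e]
    exact fun g' h' => rows_221 c6 hc g' h'
  · omega
  · -- (2, 1, 2)
    obtain rfl := key _ _ _ e0 e1 e2
    refine rows_perm ![2, 1, 2] c6 (Equiv.swap 1 2) ?_ g h0
    have e : (![2, 1, 2] : Fin 3 → ℕ) ∘ (Equiv.swap (1 : Fin 3) 2) = ![2, 2, 1] := by
      funext k
      fin_cases k <;> rfl
    rw [e]
    exact fun g' h' => rows_221 c6 hc g' h'
  · -- (2, 2, 1)
    obtain rfl := key _ _ _ e0 e1 e2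
    exact rows_221 c6 hc g h0
  · -- (2, 2, 2)
    have e : r = fun _ => 2 := by
      funext k
      fin_cases k
      · exact e0
      · exact e1
      · exact e2
    subst e
    exact rows_of_single c6 (fun s hs => single_222 c6 hc s hs) g h0

end Vale.Agent.Lib.P328.Small
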