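import Vale.Agent.Lib.P328.helper26.SmallMain

/-!
P328: the three-row inequality for the 3 x 6 tables with row sums (2, 2, 1), for the
nondecreasing column sums listed below: the list of the tables and a decomposition into
squares, checked by evaluation.
-/

namespace Vale.Agent.Lib.P328.Small

open Finset
open Vale.Agent.Lib.P328.RP

/-- The tables with row sums (2, 2, 1) and column sums (0, 0, 0, 0, 0, 5), as triples of codes. -/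
def tabs_221_0 : List (Fin 3 → Fin 6 × Fin 6) :=
  [![(5, 5), (5, 5), (5, 5)]]

/-- An integer vector of the decomposition into squares. -/
def vec_221_0_0 : List ℤ :=
  [0, 0, 0, 0, 0, 0, 0, 0, 0, 0, 0, 0, 0, 0, 0, 0, 0, 0, 0, 0, 3, 0, 0, 0, 0, 0, 0, 0, 0, 0, 0, 0, 0, 0, 0, 0, 0, 0, 0, 0, 0, -1, 0, 0, 0, 0, 0, 0, 0, 0, 0, 0, 0, 0, 0, 0, 0, 0, 0, 0, 0, 0, -1]

/-- An integer vector of the decomposition into squares. -/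
def vec_221_0_1 : List ℤ :=
  [0, 0, 0, 0, 0, 0, 0, 0, 0, 0, 0, 0, 0, 0, 0, 0, 0, 0, 0, 0, 0, 0, 0, 0, 0, 0, 0, 0, 0, 0, 0, 0, 0, 0, 0, 0, 0, 0, 0, 0, 0, 2, 0, 0, 0, 0, 0, 0, 0, 0, 0, 0, 0, 0, 0, 0, 0, 0, 0, 0, 0, 0, -1]

/-- An integer vector of the decomposition into squares. -/
def vec_221_0_2 : List ℤ :=
  [0, 0, 0, 0, 0, 0, 0, 0, 0, 0, 0, 0, 0, 0, 0, 0, 0, 0, 0, 0, 0, 0, 0, 0, 0, 0, 0, 0, 0, 0, 0, 0, 0, 0, 0, 0, 0, 0, 0, 0, 0, 0, 0, 0, 0, 0, 0, 0, 0, 0, 0, 0, 0, 0, 0, 0, 0, 0, 0, 0, 0, 0, 1]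

/-- Weights and integer vectors of a decomposition into squares. -/
def vecs_221_0 : List (ℤ × List ℤ) :=
  [(1, vec_221_0_0),
   (2, vec_221_0_1),
   (6, vec_221_0_2)]

theorem rows_221_0 (g : Fin 3 → (Fin 6 → ℕ) → ℝ)
    (h0 : ∀ k, ∑ x : CT 3 6 ![2, 2, 1] ![0, 0, 0, 0, 0, 5], g k (x.1 k) = 0) :
    ∑ x : CT 3 6 ![2, 2, 1] ![0, 0, 0, 0, 0, 5], (∑ k, g k (x.1 k)) ^ 2
      ≤ 2 * ∑ x : CT 3 6 ![2, 2, 1] ![0, 0, 0, 0, 0, 5], ∑ k, g k (x.1 k) ^ 2 :=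
  rows_of_cert ![2, 2, 1] (by decide) ![0, 0, 0, 0, 0, 5] tabs_221_0 (by decide +kernel) (by decide +kernel)
    (by decide +kernel) 3 6 (by norm_num) vecs_221_0 (by decide +kernel)
    (by decide +kernel) g h0

/-- The tables with row sums (2, 2, 1) and column sums (0, 0, 0, 0, 1, 4), as triples of codes. -/
def tabs_221_1 : List (Fin 3 → Fin 6 × Fin 6) :=
  [![(4, 5), (5, 5), (5, 5)],
   ![(5, 5), (4, 5), (5, 5)],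
   ![(5, 5), (5, 5), (4, 4)]]

/-- An integer vector of the decomposition into squares. -/
def vec_221_1_0 : List ℤ :=
  [0, 0, 0, 0, 0, 0, 0, 0, 0, 0, 0, 0, 0, 0, 0, 0, 0, 0, 0, 5, 4, 0, 0, 0, 0, 0, 0, 0, 0, 0, 0, 0, 0, 0, 0, 0, 0, 0, 0, 0, 0, -3, 0, 0, 0, 0, 0, 0, 0, 0, 0, 0, 0, 0, 0, 0, 0, 0, 0, 0, 0, 0, -3]

/-- An integer vector of the decomposition into squares. -/
def vec_221_1_1 : List ℤ :=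
  [0, 0, 0, 0, 0, 0, 0, 0, 0, 0, 0, 0, 0, 0, 0, 0, 0, 0, 0, 0, 18, 0, 0, 0, 0, 0, 0, 0, 0, 0, 0, 0, 0, 0, 0, 0, 0, 0, 0, 0, -5, -1, 0, 0, 0, 0, 0, 0, 0, 0, 0, 0, 0, 0, 0, 0, 0, 0, 0, 0, -5, 0, -1]

/-- An integer vector of the decomposition into squares. -/
def vec_221_1_2 : List ℤ :=
  [0, 0, 0, 0, 0, 0, 0, 0, 0, 0, 0, 0, 0, 0, 0, 0, 0, 0, 0, 0, 0, 0, 0, 0, 0, 0, 0, 0, 0, 0, 0, 0, 0, 0, 0, 0, 0, 0, 0, 0, 25, 23, 0, 0, 0, 0, 0, 0, 0, 0, 0, 0, 0, 0, 0, 0, 0, 0, 0, 0, -5, 0, -19]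

/-- An integer vector of the decomposition into squares. -/
def vec_221_1_3 : List ℤ :=
  [0, 0, 0, 0, 0, 0, 0, 0, 0, 0, 0, 0, 0, 0, 0, 0, 0, 0, 0, 0, 0, 0, 0, 0, 0, 0, 0, 0, 0, 0, 0, 0, 0, 0, 0, 0, 0, 0, 0, 0, 0, 18, 0, 0, 0, 0, 0, 0, 0, 0, 0, 0, 0, 0, 0, 0, 0, 0, 0, 0, -5, 0, -4]

/-- An integer vector of the decomposition into squares. -/
def vec_221_1_4 : List ℤ :=
  [0, 0, 0, 0, 0, 0, 0, 0, 0, 0, 0, 0, 0, 0, 0, 0, 0, 0, 0, 0, 0, 0, 0, 0, 0, 0, 0, 0, 0, 0, 0, 0, 0, 0, 0, 0, 0, 0, 0, 0, 0, 0, 0, 0, 0, 0, 0, 0, 0, 0, 0, 0, 0, 0, 0, 0, 0, 0, 0, 0, 5, 0, 4]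

/-- An integer vector of the decomposition into squares. -/
def vec_221_1_5 : List ℤ :=
  [0, 0, 0, 0, 0, 0, 0, 0, 0, 0, 0, 0, 0, 0, 0, 0, 0, 0, 0, 0, 0, 0, 0, 0, 0, 0, 0, 0, 0, 0, 0, 0, 0, 0, 0, 0, 0, 0, 0, 0, 0, 0, 0, 0, 0, 0, 0, 0, 0, 0, 0, 0, 0, 0, 0, 0, 0, 0, 0, 0, 0, 0, 1]

/-- Weights and integer vectors of a decomposition into squares. -/
def vecs_221_1 : List (ℤ × List ℤ) :=
  [(30, vec_221_1_0),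
   (5, vec_221_1_1),
   (1, vec_221_1_2),
   (4, vec_221_1_3),
   (20, vec_221_1_4),
   (1080, vec_221_1_5)]

theorem rows_221_1 (g : Fin 3 → (Fin 6 → ℕ) → ℝ)
    (h0 : ∀ k, ∑ x : CT 3 6 ![2, 2, 1] ![0, 0, 0, 0, 1, 4], g k (x.1 k) = 0) :
    ∑ x : CT 3 6 ![2, 2, 1] ![0, 0, 0, 0, 1, 4], (∑ k, g k (x.1 k)) ^ 2
      ≤ 2 * ∑ x : CT 3 6 ![2, 2, 1] ![0, 0, 0, 0, 1, 4], ∑ k, g k (x.1 k) ^ 2 :=
  rows_of_cert ![2, 2, 1] (by decide) ![0, 0, 0, 0, 1, 4] tabs_221_1 (by decide +kernel) (by decide +kernel)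
    (by decide +kernel) 450 300 (by norm_num) vecs_221_1 (by decide +kernel)
    (by decide +kernel) g h0

/-- The tables with row sums (2, 2, 1) and column sums (0, 0, 0, 0, 2, 3), as triples of codes. -/
def tabs_221_2 : List (Fin 3 → Fin 6 × Fin 6) :=
  [![(4, 4), (5, 5), (5, 5)],
   ![(4, 5), (4, 5), (5, 5)],
   ![(4, 5), (5, 5), (4, 4)],
   ![(5, 5), (4, 4), (5, 5)],
   ![(5, 5), (4, 5), (4, 4)]]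

/-- An integer vector of the decomposition into squares. -/
def vec_221_2_0 : List ℤ :=
  [0, 0, 0, 0, 0, 0, 0, 0, 0, 0, 0, 0, 0, 0, 0, 0, 0, 0, 7, 4, 4, 0, 0, 0, 0, 0, 0, 0, 0, 0, 0, 0, 0, 0, 0, 0, 0, 0, 0, 0, 0, -5, 0, 0, 0, 0, 0, 0, 0, 0, 0, 0, 0, 0, 0, 0, 0, 0, 0, 0, 0, 0, -5]

/-- An integer vector of the decomposition into squares. -/
def vec_221_2_1 : List ℤ :=
  [0, 0, 0, 0, 0, 0, 0, 0, 0, 0, 0, 0, 0, 0, 0, 0, 0, 0, 0, 22, 8, 0, 0, 0, 0, 0, 0, 0, 0, 0, 0, 0, 0, 0, 0, 0, 0, 0, 0, 0, -7, -3, 0, 0, 0, 0, 0, 0, 0, 0, 0, 0, 0, 0, 0, 0, 0, 0, 0, 0, -7, 0, -3]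

/-- An integer vector of the decomposition into squares. -/
def vec_221_2_2 : List ℤ :=
  [0, 0, 0, 0, 0, 0, 0, 0, 0, 0, 0, 0, 0, 0, 0, 0, 0, 0, 0, 0, 30, 0, 0, 0, 0, 0, 0, 0, 0, 0, 0, 0, 0, 0, 0, 0, 0, 0, 0, -11, -7, 8, 0, 0, 0, 0, 0, 0, 0, 0, 0, 0, 0, 0, 0, 0, 0, 0, 0, 0, -7, 0, -3]

/-- An integer vector of the decomposition into squares. -/
def vec_221_2_3 : List ℤ :=
  [0, 0, 0, 0, 0, 0, 0, 0, 0, 0, 0, 0, 0, 0, 0, 0, 0, 0, 0, 0, 0, 0, 0, 0, 0, 0, 0, 0, 0, 0, 0, 0, 0, 0, 0, 0, 0, 0, 0, 31, 17, 32, 0, 0, 0, 0, 0, 0, 0, 0, 0, 0, 0, 0, 0, 0, 0, 0, 0, 0, -7, 0, -33]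

/-- An integer vector of the decomposition into squares. -/
def vec_221_2_4 : List ℤ :=
  [0, 0, 0, 0, 0, 0, 0, 0, 0, 0, 0, 0, 0, 0, 0, 0, 0, 0, 0, 0, 0, 0, 0, 0, 0, 0, 0, 0, 0, 0, 0, 0, 0, 0, 0, 0, 0, 0, 0, 0, 175, 65, 0, 0, 0, 0, 0, 0, 0, 0, 0, 0, 0, 0, 0, 0, 0, 0, 0, 0, -83, 0, -37]

/-- An integer vector of the decomposition into squares. -/
def vec_221_2_5 : List ℤ :=
  [0, 0, 0, 0, 0, 0, 0, 0, 0, 0, 0, 0, 0, 0, 0, 0, 0, 0, 0, 0, 0, 0, 0, 0, 0, 0, 0, 0, 0, 0, 0, 0, 0, 0, 0, 0, 0, 0, 0, 0, 0, 10, 0, 0, 0, 0, 0, 0, 0, 0, 0, 0, 0, 0, 0, 0, 0, 0, 0, 0, -2, 0, -3]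

/-- An integer vector of the decomposition into squares. -/
def vec_221_2_6 : List ℤ :=
  [0, 0, 0, 0, 0, 0, 0, 0, 0, 0, 0, 0, 0, 0, 0, 0, 0, 0, 0, 0, 0, 0, 0, 0, 0, 0, 0, 0, 0, 0, 0, 0, 0, 0, 0, 0, 0, 0, 0, 0, 0, 0, 0, 0, 0, 0, 0, 0, 0, 0, 0, 0, 0, 0, 0, 0, 0, 0, 0, 0, 3, 0, 2]

/-- An integer vector of the decomposition into squares. -/
def vec_221_2_7 : List ℤ :=
  [0, 0, 0, 0, 0, 0, 0, 0, 0, 0, 0, 0, 0, 0, 0, 0, 0, 0, 0, 0, 0, 0, 0, 0, 0, 0, 0, 0, 0, 0, 0, 0, 0, 0, 0, 0, 0, 0, 0, 0, 0, 0, 0, 0, 0, 0, 0, 0, 0, 0, 0, 0, 0, 0, 0, 0, 0, 0, 0, 0, 0, 0, 1]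

/-- Weights and integer vectors of a decomposition into squares. -/
def vecs_221_2 : List (ℤ × List ℤ) :=
  [(10230, vec_221_2_0),
   (2325, vec_221_2_1),
   (1085, vec_221_2_2),
   (385, vec_221_2_3),
   (33, vec_221_2_4),
   (4092, vec_221_2_5),
   (95480, vec_221_2_6),
   (1193500, vec_221_2_7)]

theorem rows_221_2 (g : Fin 3 → (Fin 6 → ℕ) → ℝ)
    (h0 : ∀ k, ∑ x : CT 3 6 ![2, 2, 1] ![0, 0, 0, 0, 2, 3], g k (x.1 k) = 0) :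
    ∑ x : CT 3 6 ![2, 2, 1] ![0, 0, 0, 0, 2, 3], (∑ k, g k (x.1 k)) ^ 2
      ≤ 2 * ∑ x : CT 3 6 ![2, 2, 1] ![0, 0, 0, 0, 2, 3], ∑ k, g k (x.1 k) ^ 2 :=
  rows_of_cert ![2, 2, 1] (by decide) ![0, 0, 0, 0, 2, 3] tabs_221_2 (by decide +kernel) (by decide +kernel)
    (by decide +kernel) 358050 143220 (by norm_num) vecs_221_2 (by decide +kernel)
    (by decide +kernel) g h0

end Vale.Agent.Lib.P328.Small
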