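import Vale.Agent.Lib.P328.helper26.C221a

/-!
P328: the three-row inequality for the 3 x 6 tables with row sums (2, 2, 1), for the
nondecreasing column sums listed below: the list of the tables and a decomposition into
squares, checked by evaluation.
-/

namespace Vale.Agent.Lib.P328.Small

open Finset
open Vale.Agent.Lib.P328.RP

/-- The tables with row sums (2, 2, 1) and column sums (0, 0, 0, 1, 1, 3), as triples of codes. -/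
def tabs_221_3 : List (Fin 3 → Fin 6 × Fin 6) :=
  [![(3, 4), (5, 5), (5, 5)],
   ![(3, 5), (4, 5), (5, 5)],
   ![(3, 5), (5, 5), (4, 4)],
   ![(4, 5), (3, 5), (5, 5)],
   ![(4, 5), (5, 5), (3, 3)],
   ![(5, 5), (3, 4), (5, 5)],
   ![(5, 5), (3, 5), (4, 4)],
   ![(5, 5), (4, 5), (3, 3)]]

/-- An integer vector of the decomposition into squares. -/
def vec_221_3_0 : List ℤ :=
  [0, 0, 0, 0, 0, 0, 0, 0, 0, 0, 0, 0, 0, 0, 0, 0, 5, 2, 0, 2, 3, 0, 0, 0, 0, 0, 0, 0, 0, 0, 0, 0, 0, 0, 0, 0, 0, 0, 0, 0, 0, -4, 0, 0, 0, 0, 0, 0, 0, 0, 0, 0, 0, 0, 0, 0, 0, 0, 0, 0, 0, 0, -4]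

/-- An integer vector of the decomposition into squares. -/
def vec_221_3_1 : List ℤ :=
  [0, 0, 0, 0, 0, 0, 0, 0, 0, 0, 0, 0, 0, 0, 0, 0, 0, 14, 0, 4, 6, 0, 0, 0, 0, 0, 0, 0, 0, 0, 0, 0, 0, 0, 0, 0, 0, 0, 0, 0, -5, -3, 0, 0, 0, 0, 0, 0, 0, 0, 0, 0, 0, 0, 0, 0, 0, 0, 0, 0, -5, 0, -3]

/-- An integer vector of the decomposition into squares. -/
def vec_221_3_2 : List ℤ :=
  [0, 0, 0, 0, 0, 0, 0, 0, 0, 0, 0, 0, 0, 0, 0, 0, 0, 0, 0, 18, 6, 0, 0, 0, 0, 0, 0, 0, 0, 0, 0, 0, 0, 0, 0, 0, 0, 0, -7, 0, 2, -3, 0, 0, 0, 0, 0, 0, 0, 0, 0, 0, 0, 0, 0, 0, 0, -7, 0, 0, 2, 0, -3]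

/-- An integer vector of the decomposition into squares. -/
def vec_221_3_3 : List ℤ :=
  [0, 0, 0, 0, 0, 0, 0, 0, 0, 0, 0, 0, 0, 0, 0, 0, 0, 0, 0, 0, 12, 0, 0, 0, 0, 0, 0, 0, 0, 0, 0, 0, 0, 0, 0, 0, 0, -3, -2, 0, -2, 3, 0, 0, 0, 0, 0, 0, 0, 0, 0, 0, 0, 0, 0, 0, 0, -2, 0, 0, -2, 0, 0]

/-- An integer vector of the decomposition into squares. -/
def vec_221_3_4 : List ℤ :=
  [0, 0, 0, 0, 0, 0, 0, 0, 0, 0, 0, 0, 0, 0, 0, 0, 0, 0, 0, 0, 0, 0, 0, 0, 0, 0, 0, 0, 0, 0, 0, 0, 0, 0, 0, 0, 0, 6, 2, 0, 2, 6, 0, 0, 0, 0, 0, 0, 0, 0, 0, 0, 0, 0, 0, 0, 0, -1, 0, 0, -1, 0, -6]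

/-- An integer vector of the decomposition into squares. -/
def vec_221_3_5 : List ℤ :=
  [0, 0, 0, 0, 0, 0, 0, 0, 0, 0, 0, 0, 0, 0, 0, 0, 0, 0, 0, 0, 0, 0, 0, 0, 0, 0, 0, 0, 0, 0, 0, 0, 0, 0, 0, 0, 0, 0, 43, 0, 16, 21, 0, 0, 0, 0, 0, 0, 0, 0, 0, 0, 0, 0, 0, 0, 0, -8, 0, 0, -17, 0, -15]

/-- An integer vector of the decomposition into squares. -/
def vec_221_3_6 : List ℤ :=
  [0, 0, 0, 0, 0, 0, 0, 0, 0, 0, 0, 0, 0, 0, 0, 0, 0, 0, 0, 0, 0, 0, 0, 0, 0, 0, 0, 0, 0, 0, 0, 0, 0, 0, 0, 0, 0, 0, 0, 0, 177, 63, 0, 0, 0, 0, 0, 0, 0, 0, 0, 0, 0, 0, 0, 0, 0, -67, 0, 0, -8, 0, -45]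

/-- An integer vector of the decomposition into squares. -/
def vec_221_3_7 : List ℤ :=
  [0, 0, 0, 0, 0, 0, 0, 0, 0, 0, 0, 0, 0, 0, 0, 0, 0, 0, 0, 0, 0, 0, 0, 0, 0, 0, 0, 0, 0, 0, 0, 0, 0, 0, 0, 0, 0, 0, 0, 0, 0, 32, 0, 0, 0, 0, 0, 0, 0, 0, 0, 0, 0, 0, 0, 0, 0, -5, 0, 0, -5, 0, -6]

/-- An integer vector of the decomposition into squares. -/
def vec_221_3_8 : List ℤ :=
  [0, 0, 0, 0, 0, 0, 0, 0, 0, 0, 0, 0, 0, 0, 0, 0, 0, 0, 0, 0, 0, 0, 0, 0, 0, 0, 0, 0, 0, 0, 0, 0, 0, 0, 0, 0, 0, 0, 0, 0, 0, 0, 0, 0, 0, 0, 0, 0, 0, 0, 0, 0, 0, 0, 0, 0, 0, 49, 0, 0, 17, 0, 30]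

/-- An integer vector of the decomposition into squares. -/
def vec_221_3_9 : List ℤ :=
  [0, 0, 0, 0, 0, 0, 0, 0, 0, 0, 0, 0, 0, 0, 0, 0, 0, 0, 0, 0, 0, 0, 0, 0, 0, 0, 0, 0, 0, 0, 0, 0, 0, 0, 0, 0, 0, 0, 0, 0, 0, 0, 0, 0, 0, 0, 0, 0, 0, 0, 0, 0, 0, 0, 0, 0, 0, 0, 0, 0, 11, 0, 5]

/-- An integer vector of the decomposition into squares. -/
def vec_221_3_10 : List ℤ :=
  [0, 0, 0, 0, 0, 0, 0, 0, 0, 0, 0, 0, 0, 0, 0, 0, 0, 0, 0, 0, 0, 0, 0, 0, 0, 0, 0, 0, 0, 0, 0, 0, 0, 0, 0, 0, 0, 0, 0, 0, 0, 0, 0, 0, 0, 0, 0, 0, 0, 0, 0, 0, 0, 0, 0, 0, 0, 0, 0, 0, 0, 0, 1]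

/-- Weights and integer vectors of a decomposition into squares. -/
def vecs_221_3 : List (ℤ × List ℤ) :=
  [(24613974, vec_221_3_0),
   (7032564, vec_221_3_1),
   (3906980, vec_221_3_2),
   (13674430, vec_221_3_3),
   (13674430, vec_221_3_4),
   (636020, vec_221_3_5),
   (32340, vec_221_3_6),
   (1042965, vec_221_3_7),
   (418605, vec_221_3_8),
   (7306560, vec_221_3_9),
   (2148128640, vec_221_3_10)]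

theorem rows_221_3 (g : Fin 3 → (Fin 6 → ℕ) → ℝ)
    (h0 : ∀ k, ∑ x : CT 3 6 ![2, 2, 1] ![0, 0, 0, 1, 1, 3], g k (x.1 k) = 0) :
    ∑ x : CT 3 6 ![2, 2, 1] ![0, 0, 0, 1, 1, 3], (∑ k, g k (x.1 k)) ^ 2
      ≤ 2 * ∑ x : CT 3 6 ![2, 2, 1] ![0, 0, 0, 1, 1, 3], ∑ k, g k (x.1 k) ^ 2 :=
  rows_of_cert ![2, 2, 1] (by decide) ![0, 0, 0, 1, 1, 3] tabs_221_3 (by decide +kernel) (by decide +kernel)
    (by decide +kernel) 492279480 123069870 (by norm_num) vecs_221_3 (by decide +kernel)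
    (by decide +kernel) g h0

/-- The tables with row sums (2, 2, 1) and column sums (0, 0, 0, 1, 2, 2), as triples of codes. -/
def tabs_221_4 : List (Fin 3 → Fin 6 × Fin 6) :=
  [![(3, 4), (4, 5), (5, 5)],
   ![(3, 4), (5, 5), (4, 4)],
   ![(3, 5), (4, 4), (5, 5)],
   ![(3, 5), (4, 5), (4, 4)],
   ![(4, 4), (3, 5), (5, 5)],
   ![(4, 4), (5, 5), (3, 3)],
   ![(4, 5), (3, 4), (5, 5)],
   ![(4, 5), (3, 5), (4, 4)],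
   ![(4, 5), (4, 5), (3, 3)],
   ![(5, 5), (3, 4), (4, 4)],
   ![(5, 5), (4, 4), (3, 3)]]

/-- An integer vector of the decomposition into squares. -/
def vec_221_4_0 : List ℤ :=
  [0, 0, 0, 0, 0, 0, 0, 0, 0, 0, 0, 0, 0, 0, 0, 0, 30, 8, 8, 12, 8, 0, 0, 0, 0, 0, 0, 0, 0, 0, 0, 0, 0, 0, 0, 0, 0, 0, 0, 0, -11, -11, 0, 0, 0, 0, 0, 0, 0, 0, 0, 0, 0, 0, 0, 0, 0, 0, 0, 0, -11, 0, -11]

/-- An integer vector of the decomposition into squares. -/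
def vec_221_4_1 : List ℤ :=
  [0, 0, 0, 0, 0, 0, 0, 0, 0, 0, 0, 0, 0, 0, 0, 0, 0, 38, 8, 12, 8, 0, 0, 0, 0, 0, 0, 0, 0, 0, 0, 0, 0, 0, 0, 0, 0, 0, 0, -15, -11, 4, 0, 0, 0, 0, 0, 0, 0, 0, 0, 0, 0, 0, 0, 0, 0, 0, 0, 0, -11, 0, -11]

/-- An integer vector of the decomposition into squares. -/
def vec_221_4_2 : List ℤ :=
  [0, 0, 0, 0, 0, 0, 0, 0, 0, 0, 0, 0, 0, 0, 0, 0, 0, 0, 46, 12, 8, 0, 0, 0, 0, 0, 0, 0, 0, 0, 0, 0, 0, 0, 0, 0, 0, 0, -19, 4, 8, -15, 0, 0, 0, 0, 0, 0, 0, 0, 0, 0, 0, 0, 0, 0, 0, -19, 0, 0, 8, 0, -11]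

/-- An integer vector of the decomposition into squares. -/
def vec_221_4_3 : List ℤ :=
  [0, 0, 0, 0, 0, 0, 0, 0, 0, 0, 0, 0, 0, 0, 0, 0, 0, 0, 0, 87, 12, 0, 0, 0, 0, 0, 0, 0, 0, 0, 0, 0, 0, 0, 0, 0, 0, -23, -17, 6, -11, 12, 0, 0, 0, 0, 0, 0, 0, 0, 0, 0, 0, 0, 0, 0, 0, -17, 0, 0, -11, 0, -5]

/-- An integer vector of the decomposition into squares. -/
def vec_221_4_4 : List ℤ :=
  [0, 0, 0, 0, 0, 0, 0, 0, 0, 0, 0, 0, 0, 0, 0, 0, 0, 0, 0, 0, 66, 0, 0, 0, 0, 0, 0, 0, 0, 0, 0, 0, 0, 0, 0, 0, 0, -25, 8, -25, 12, 8, 0, 0, 0, 0, 0, 0, 0, 0, 0, 0, 0, 0, 0, 0, 0, -21, 0, 0, -17, 0, 16]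

/-- An integer vector of the decomposition into squares. -/
def vec_221_4_5 : List ℤ :=
  [0, 0, 0, 0, 0, 0, 0, 0, 0, 0, 0, 0, 0, 0, 0, 0, 0, 0, 0, 0, 0, 0, 0, 0, 0, 0, 0, 0, 0, 0, 0, 0, 0, 0, 0, 0, 0, 141, 42, 31, 74, 64, 0, 0, 0, 0, 0, 0, 0, 0, 0, 0, 0, 0, 0, 0, 0, -31, 0, 0, -89, 0, -56]

/-- An integer vector of the decomposition into squares. -/
def vec_221_4_6 : List ℤ :=
  [0, 0, 0, 0, 0, 0, 0, 0, 0, 0, 0, 0, 0, 0, 0, 0, 0, 0, 0, 0, 0, 0, 0, 0, 0, 0, 0, 0, 0, 0, 0, 0, 0, 0, 0, 0, 0, 0, 183, 78, 74, 17, 0, 0, 0, 0, 0, 0, 0, 0, 0, 0, 0, 0, 0, 0, 0, -31, 0, 0, -42, 0, -103]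

/-- An integer vector of the decomposition into squares. -/
def vec_221_4_7 : List ℤ :=
  [0, 0, 0, 0, 0, 0, 0, 0, 0, 0, 0, 0, 0, 0, 0, 0, 0, 0, 0, 0, 0, 0, 0, 0, 0, 0, 0, 0, 0, 0, 0, 0, 0, 0, 0, 0, 0, 0, 0, 1661, 409, 746, 0, 0, 0, 0, 0, 0, 0, 0, 0, 0, 0, 0, 0, 0, 0, -980, 0, 0, -31, 0, -397]

/-- An integer vector of the decomposition into squares. -/
def vec_221_4_8 : List ℤ :=
  [0, 0, 0, 0, 0, 0, 0, 0, 0, 0, 0, 0, 0, 0, 0, 0, 0, 0, 0, 0, 0, 0, 0, 0, 0, 0, 0, 0, 0, 0, 0, 0, 0, 0, 0, 0, 0, 0, 0, 0, 28403, 2045, 0, 0, 0, 0, 0, 0, 0, 0, 0, 0, 0, 0, 0, 0, 0, -1876, 0, 0, -7083, 0, -6265]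

/-- An integer vector of the decomposition into squares. -/
def vec_221_4_9 : List ℤ :=
  [0, 0, 0, 0, 0, 0, 0, 0, 0, 0, 0, 0, 0, 0, 0, 0, 0, 0, 0, 0, 0, 0, 0, 0, 0, 0, 0, 0, 0, 0, 0, 0, 0, 0, 0, 0, 0, 0, 0, 0, 0, 1210, 0, 0, 0, 0, 0, 0, 0, 0, 0, 0, 0, 0, 0, 0, 0, -485, 0, 0, -302, 0, 182]

/-- An integer vector of the decomposition into squares. -/
def vec_221_4_10 : List ℤ :=
  [0, 0, 0, 0, 0, 0, 0, 0, 0, 0, 0, 0, 0, 0, 0, 0, 0, 0, 0, 0, 0, 0, 0, 0, 0, 0, 0, 0, 0, 0, 0, 0, 0, 0, 0, 0, 0, 0, 0, 0, 0, 0, 0, 0, 0, 0, 0, 0, 0, 0, 0, 0, 0, 0, 0, 0, 0, 179, 0, 0, 92, 0, 92]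

/-- An integer vector of the decomposition into squares. -/
def vec_221_4_11 : List ℤ :=
  [0, 0, 0, 0, 0, 0, 0, 0, 0, 0, 0, 0, 0, 0, 0, 0, 0, 0, 0, 0, 0, 0, 0, 0, 0, 0, 0, 0, 0, 0, 0, 0, 0, 0, 0, 0, 0, 0, 0, 0, 0, 0, 0, 0, 0, 0, 0, 0, 0, 0, 0, 0, 0, 0, 0, 0, 0, 0, 0, 0, 227, 0, 48]

/-- An integer vector of the decomposition into squares. -/
def vec_221_4_12 : List ℤ :=
  [0, 0, 0, 0, 0, 0, 0, 0, 0, 0, 0, 0, 0, 0, 0, 0, 0, 0, 0, 0, 0, 0, 0, 0, 0, 0, 0, 0, 0, 0, 0, 0, 0, 0, 0, 0, 0, 0, 0, 0, 0, 0, 0, 0, 0, 0, 0, 0, 0, 0, 0, 0, 0, 0, 0, 0, 0, 0, 0, 0, 0, 0, 1]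

/-- Weights and integer vectors of a decomposition into squares. -/
def vecs_221_4 : List (ℤ × List ℤ) :=
  [(208949394496270426647, vec_221_4_0),
   (120970702076788141743, vec_221_4_1),
   (78893936137035744615, vec_221_4_2),
   (34459420381693773510, vec_221_4_3),
   (36025757671770763215, vec_221_4_4),
   (7409552996321646335, vec_221_4_5),
   (4008446702928103755, vec_221_4_6),
   (37807946024005795, vec_221_4_7),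
   (243595892067495, vec_221_4_8),
   (56177641726983756, vec_221_4_9),
   (6367173016646127780, vec_221_4_10),
   (5430329057368679904, vec_221_4_11),
   (267307947848973268274400, vec_221_4_12)]

theorem rows_221_4 (g : Fin 3 → (Fin 6 → ℕ) → ℝ)
    (h0 : ∀ k, ∑ x : CT 3 6 ![2, 2, 1] ![0, 0, 0, 1, 2, 2], g k (x.1 k) = 0) :
    ∑ x : CT 3 6 ![2, 2, 1] ![0, 0, 0, 1, 2, 2], (∑ k, g k (x.1 k)) ^ 2
      ≤ 2 * ∑ x : CT 3 6 ![2, 2, 1] ![0, 0, 0, 1, 2, 2], ∑ k, g k (x.1 k) ^ 2 :=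
  rows_of_cert ![2, 2, 1] (by decide) ![0, 0, 0, 1, 2, 2] tabs_221_4 (by decide +kernel) (by decide +kernel)
    (by decide +kernel) 68953300183769240793510 12536963669776225598820 (by norm_num) vecs_221_4 (by decide +kernel)
    (by decide +kernel) g h0

end Vale.Agent.Lib.P328.Small
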