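import Vale.Agent.Lib.P328.helper26.C221b

/-!
P328: the three-row inequality for the 3 x 6 tables with row sums (2, 2, 1), for the
nondecreasing column sums listed below: the list of the tables and a decomposition into
squares, checked by evaluation.
-/

namespace Vale.Agent.Lib.P328.Small

open Finset
open Vale.Agent.Lib.P328.RP

/-- The tables with row sums (2, 2, 1) and column sums (0, 0, 1, 1, 1, 2), as triples of codes. -/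
def tabs_221_5 : List (Fin 3 → Fin 6 × Fin 6) :=
  [![(2, 3), (4, 5), (5, 5)],
   ![(2, 3), (5, 5), (4, 4)],
   ![(2, 4), (3, 5), (5, 5)],
   ![(2, 4), (5, 5), (3, 3)],
   ![(2, 5), (3, 4), (5, 5)],
   ![(2, 5), (3, 5), (4, 4)],
   ![(2, 5), (4, 5), (3, 3)],
   ![(3, 4), (2, 5), (5, 5)],
   ![(3, 4), (5, 5), (2, 2)],
   ![(3, 5), (2, 4), (5, 5)],
   ![(3, 5), (2, 5), (4, 4)],
   ![(3, 5), (4, 5), (2, 2)],
   ![(4, 5), (2, 3), (5, 5)],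
   ![(4, 5), (2, 5), (3, 3)],
   ![(4, 5), (3, 5), (2, 2)],
   ![(5, 5), (2, 3), (4, 4)],
   ![(5, 5), (2, 4), (3, 3)],
   ![(5, 5), (3, 4), (2, 2)]]

/-- An integer vector of the decomposition into squares. -/
def vec_221_5_0 : List ℤ :=
  [0, 0, 0, 0, 0, 0, 0, 0, 0, 0, 0, 0, 22, 4, 6, 0, 4, 6, 0, 6, 6, 0, 0, 0, 0, 0, 0, 0, 0, 0, 0, 0, 0, 0, 0, 0, 0, 0, 0, 0, -9, -9, 0, 0, 0, 0, 0, 0, 0, 0, 0, 0, 0, 0, 0, 0, 0, 0, 0, 0, -9, 0, -9]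

/-- An integer vector of the decomposition into squares. -/
def vec_221_5_1 : List ℤ :=
  [0, 0, 0, 0, 0, 0, 0, 0, 0, 0, 0, 0, 0, 26, 6, 0, 4, 6, 0, 6, 6, 0, 0, 0, 0, 0, 0, 0, 0, 0, 0, 0, 0, 0, 0, 0, 0, 0, -11, 0, 2, -9, 0, 0, 0, 0, 0, 0, 0, 0, 0, 0, 0, 0, 0, 0, 0, -11, 0, 0, 2, 0, -9]

/-- An integer vector of the decomposition into squares. -/
def vec_221_5_2 : List ℤ :=
  [0, 0, 0, 0, 0, 0, 0, 0, 0, 0, 0, 0, 0, 0, 48, 0, 6, 9, 0, 9, 9, 0, 0, 0, 0, 0, 0, 0, 0, 0, 0, 0, 0, 0, 0, 0, 0, -13, -10, 0, -10, 6, 0, 0, 0, 0, 0, 0, 0, 0, 0, 0, 0, 0, 0, 0, 0, -10, 0, 0, -10, 0, -7]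

/-- An integer vector of the decomposition into squares. -/
def vec_221_5_3 : List ℤ :=
  [0, 0, 0, 0, 0, 0, 0, 0, 0, 0, 0, 0, 0, 0, 0, 0, 18, 3, 0, 3, 3, 0, 0, 0, 0, 0, 0, 0, 0, 0, 0, 0, 0, 0, 0, -8, 0, 1, 2, 0, 2, -6, 0, 0, 0, 0, 0, 0, 0, 0, 0, 0, 0, -8, 0, 0, 0, 2, 0, 0, 2, 0, -5]

/-- An integer vector of the decomposition into squares. -/
def vec_221_5_4 : List ℤ :=
  [0, 0, 0, 0, 0, 0, 0, 0, 0, 0, 0, 0, 0, 0, 0, 0, 0, 21, 0, 3, 3, 0, 0, 0, 0, 0, 0, 0, 0, 0, 0, 0, 0, 0, -6, -5, 0, 1, 2, 0, -4, 3, 0, 0, 0, 0, 0, 0, 0, 0, 0, 0, 0, -5, 0, 0, 0, 2, 0, 0, -4, 0, -2]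

/-- An integer vector of the decomposition into squares. -/
def vec_221_5_5 : List ℤ :=
  [0, 0, 0, 0, 0, 0, 0, 0, 0, 0, 0, 0, 0, 0, 0, 0, 0, 0, 0, 24, 3, 0, 0, 0, 0, 0, 0, 0, 0, 0, 0, 0, 0, -7, 1, -5, 0, 1, -5, 0, 3, 3, 0, 0, 0, 0, 0, 0, 0, 0, 0, 0, 0, -5, 0, 0, 0, -5, 0, 0, 3, 0, -2]

/-- An integer vector of the decomposition into squares. -/
def vec_221_5_6 : List ℤ :=
  [0, 0, 0, 0, 0, 0, 0, 0, 0, 0, 0, 0, 0, 0, 0, 0, 0, 0, 0, 0, 27, 0, 0, 0, 0, 0, 0, 0, 0, 0, 0, 0, 0, -7, -7, 3, 0, -7, 3, 0, 3, 3, 0, 0, 0, 0, 0, 0, 0, 0, 0, 0, 0, -5, 0, 0, 0, -5, 0, 0, -5, 0, 6]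

/-- An integer vector of the decomposition into squares. -/
def vec_221_5_7 : List ℤ :=
  [0, 0, 0, 0, 0, 0, 0, 0, 0, 0, 0, 0, 0, 0, 0, 0, 0, 0, 0, 0, 0, 0, 0, 0, 0, 0, 0, 0, 0, 0, 0, 0, 0, 52, 7, 15, 0, 7, 15, 0, 24, 24, 0, 0, 0, 0, 0, 0, 0, 0, 0, 0, 0, -10, 0, 0, 0, -10, 0, 0, -28, 0, -24]

/-- An integer vector of the decomposition into squares. -/
def vec_221_5_8 : List ℤ :=
  [0, 0, 0, 0, 0, 0, 0, 0, 0, 0, 0, 0, 0, 0, 0, 0, 0, 0, 0, 0, 0, 0, 0, 0, 0, 0, 0, 0, 0, 0, 0, 0, 0, 0, 295, 75, 0, 35, 127, 0, 68, 120, 0, 0, 0, 0, 0, 0, 0, 0, 0, 0, 0, -50, 0, 0, 0, -154, 0, 0, -36, 0, -120]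

/-- An integer vector of the decomposition into squares. -/
def vec_221_5_9 : List ℤ :=
  [0, 0, 0, 0, 0, 0, 0, 0, 0, 0, 0, 0, 0, 0, 0, 0, 0, 0, 0, 0, 0, 0, 0, 0, 0, 0, 0, 0, 0, 0, 0, 0, 0, 0, 0, 1021, 0, 268, 224, 0, 224, 135, 0, 0, 0, 0, 0, 0, 0, 0, 0, 0, 0, -189, 0, 0, 0, -188, 0, 0, -188, 0, -371]

/-- An integer vector of the decomposition into squares. -/
def vec_221_5_10 : List ℤ :=
  [0, 0, 0, 0, 0, 0, 0, 0, 0, 0, 0, 0, 0, 0, 0, 0, 0, 0, 0, 0, 0, 0, 0, 0, 0, 0, 0, 0, 0, 0, 0, 0, 0, 0, 0, 0, 0, 2551, 334, 0, 334, 885, 0, 0, 0, 0, 0, 0, 0, 0, 0, 0, 0, -1239, 0, 0, 0, -98, 0, 0, -98, 0, -617]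

/-- An integer vector of the decomposition into squares. -/
def vec_221_5_11 : List ℤ :=
  [0, 0, 0, 0, 0, 0, 0, 0, 0, 0, 0, 0, 0, 0, 0, 0, 0, 0, 0, 0, 0, 0, 0, 0, 0, 0, 0, 0, 0, 0, 0, 0, 0, 0, 0, 0, 0, 0, 21161, 0, 3304, 735, 0, 0, 0, 0, 0, 0, 0, 0, 0, 0, 0, -3580, 0, 0, 0, -557, 0, 0, -3108, 0, -5355]

/-- An integer vector of the decomposition into squares. -/
def vec_221_5_12 : List ℤ :=
  [0, 0, 0, 0, 0, 0, 0, 0, 0, 0, 0, 0, 0, 0, 0, 0, 0, 0, 0, 0, 0, 0, 0, 0, 0, 0, 0, 0, 0, 0, 0, 0, 0, 0, 0, 0, 0, 0, 0, 0, 4893, 147, 0, 0, 0, 0, 0, 0, 0, 0, 0, 0, 0, -716, 0, 0, 0, -716, 0, 0, -17, 0, -1071]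

/-- An integer vector of the decomposition into squares. -/
def vec_221_5_13 : List ℤ :=
  [0, 0, 0, 0, 0, 0, 0, 0, 0, 0, 0, 0, 0, 0, 0, 0, 0, 0, 0, 0, 0, 0, 0, 0, 0, 0, 0, 0, 0, 0, 0, 0, 0, 0, 0, 0, 0, 0, 0, 0, 0, 54, 0, 0, 0, 0, 0, 0, 0, 0, 0, 0, 0, -11, 0, 0, 0, -11, 0, 0, -11, 0, 6]

/-- An integer vector of the decomposition into squares. -/
def vec_221_5_14 : List ℤ :=
  [0, 0, 0, 0, 0, 0, 0, 0, 0, 0, 0, 0, 0, 0, 0, 0, 0, 0, 0, 0, 0, 0, 0, 0, 0, 0, 0, 0, 0, 0, 0, 0, 0, 0, 0, 0, 0, 0, 0, 0, 0, 0, 0, 0, 0, 0, 0, 0, 0, 0, 0, 0, 0, 383, 0, 0, 0, 113, 0, 0, 113, 0, 147]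

/-- An integer vector of the decomposition into squares. -/
def vec_221_5_15 : List ℤ :=
  [0, 0, 0, 0, 0, 0, 0, 0, 0, 0, 0, 0, 0, 0, 0, 0, 0, 0, 0, 0, 0, 0, 0, 0, 0, 0, 0, 0, 0, 0, 0, 0, 0, 0, 0, 0, 0, 0, 0, 0, 0, 0, 0, 0, 0, 0, 0, 0, 0, 0, 0, 0, 0, 0, 0, 0, 0, 496, 0, 0, 113, 0, 147]

/-- An integer vector of the decomposition into squares. -/
def vec_221_5_16 : List ℤ :=
  [0, 0, 0, 0, 0, 0, 0, 0, 0, 0, 0, 0, 0, 0, 0, 0, 0, 0, 0, 0, 0, 0, 0, 0, 0, 0, 0, 0, 0, 0, 0, 0, 0, 0, 0, 0, 0, 0, 0, 0, 0, 0, 0, 0, 0, 0, 0, 0, 0, 0, 0, 0, 0, 0, 0, 0, 0, 0, 0, 0, 29, 0, 7]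

/-- An integer vector of the decomposition into squares. -/
def vec_221_5_17 : List ℤ :=
  [0, 0, 0, 0, 0, 0, 0, 0, 0, 0, 0, 0, 0, 0, 0, 0, 0, 0, 0, 0, 0, 0, 0, 0, 0, 0, 0, 0, 0, 0, 0, 0, 0, 0, 0, 0, 0, 0, 0, 0, 0, 0, 0, 0, 0, 0, 0, 0, 0, 0, 0, 0, 0, 0, 0, 0, 0, 0, 0, 0, 0, 0, 1]

/-- Weights and integer vectors of a decomposition into squares. -/
def vecs_221_5 : List (ℤ × List ℤ) :=
  [(406970926257201996875640, vec_221_5_0),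
   (281749102793447536298520, vec_221_5_1),
   (129135005446996787470155, vec_221_5_2),
   (559585023603652745704005, vec_221_5_3),
   (639525741261317423661720, vec_221_5_4),
   (479644305945988067746290, vec_221_5_5),
   (373056682402435163802670, vec_221_5_6),
   (57393335754220794431180, vec_221_5_7),
   (1750983124705041186036, vec_221_5_8),
   (222945941441386243080, vec_221_5_9),
   (20625339937345022880, vec_221_5_10),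
   (447819688777145256, vec_221_5_11),
   (8171588169316863720, vec_221_5_12),
   (51235252518789378719680, vec_221_5_13),
   (2226373337724342641120, vec_221_5_14),
   (1211937099164460711900, vec_221_5_15),
   (336124485813095086407300, vec_221_5_16),
   (500153234889885488574062400, vec_221_5_17)]

theorem rows_221_5 (g : Fin 3 → (Fin 6 → ℕ) → ℝ)
    (h0 : ∀ k, ∑ x : CT 3 6 ![2, 2, 1] ![0, 0, 1, 1, 1, 2], g k (x.1 k) = 0) :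
    ∑ x : CT 3 6 ![2, 2, 1] ![0, 0, 1, 1, 1, 2], (∑ k, g k (x.1 k)) ^ 2
      ≤ 2 * ∑ x : CT 3 6 ![2, 2, 1] ![0, 0, 1, 1, 1, 2], ∑ k, g k (x.1 k) ^ 2 :=
  rows_of_cert ![2, 2, 1] (by decide) ![0, 0, 1, 1, 1, 2] tabs_221_5 (by decide +kernel) (by decide +kernel)
    (by decide +kernel) 80580243398925995381376720 8953360377658443931264080 (by norm_num) vecs_221_5 (by decide +kernel)
    (by decide +kernel) g h0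

end Vale.Agent.Lib.P328.Small
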