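import Vale.Agent.Lib.P328.helper26.SmallOne

/-!
P328: the inequality for one function of a row, for the 3 x 6 tables with all row sums two,
for the nondecreasing column sums listed below: the list of the tables and a decomposition
into squares, checked by evaluation.
-/

namespace Vale.Agent.Lib.P328.Small

open Finset
open Vale.Agent.Lib.P328.RP

/-- The tables with row sums two and column sums (0, 0, 0, 0, 0, 6), as triples of codes. -/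
def tabs_222_0 : List (Fin 3 → Fin 6 × Fin 6) :=
  [![(5, 5), (5, 5), (5, 5)]]

/-- Weights and integer vectors of a decomposition into squares. -/
def vecs_222_0 : List (ℤ × List ℤ) :=
  []

theorem single_222_0 (s : (Fin 6 → ℕ) → ℝ)
    (h0 : ∑ x : CT 3 6 (fun _ => 2) ![0, 0, 0, 0, 0, 6], s (x.1 0) = 0) :
    2 * ∑ x : CT 3 6 (fun _ => 2) ![0, 0, 0, 0, 0, 6], s (x.1 0) * s (x.1 1)
      ≤ ∑ x : CT 3 6 (fun _ => 2) ![0, 0, 0, 0, 0, 6], s (x.1 0) ^ 2 :=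
  single_of_cert ![0, 0, 0, 0, 0, 6] tabs_222_0 (by decide +kernel) (by decide +kernel)
    (by decide +kernel) 1 1 (by norm_num) vecs_222_0 (by decide +kernel)
    (by decide +kernel) s h0

/-- The tables with row sums two and column sums (0, 0, 0, 0, 1, 5), as triples of codes. -/
def tabs_222_1 : List (Fin 3 → Fin 6 × Fin 6) :=
  [![(4, 5), (5, 5), (5, 5)],
   ![(5, 5), (4, 5), (5, 5)],
   ![(5, 5), (5, 5), (4, 5)]]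

/-- Weights and integer vectors of a decomposition into squares. -/
def vecs_222_1 : List (ℤ × List ℤ) :=
  [(4, [0, 0, 0, 0, 0, 0, 0, 0, 0, 0, 0, 0, 0, 0, 0, 0, 0, 0, 0, 1, -1])]

theorem single_222_1 (s : (Fin 6 → ℕ) → ℝ)
    (h0 : ∑ x : CT 3 6 (fun _ => 2) ![0, 0, 0, 0, 1, 5], s (x.1 0) = 0) :
    2 * ∑ x : CT 3 6 (fun _ => 2) ![0, 0, 0, 0, 1, 5], s (x.1 0) * s (x.1 1)
      ≤ ∑ x : CT 3 6 (fun _ => 2) ![0, 0, 0, 0, 1, 5], s (x.1 0) ^ 2 :=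
  single_of_cert ![0, 0, 0, 0, 1, 5] tabs_222_1 (by decide +kernel) (by decide +kernel)
    (by decide +kernel) 3 1 (by norm_num) vecs_222_1 (by decide +kernel)
    (by decide +kernel) s h0

/-- The tables with row sums two and column sums (0, 0, 0, 0, 2, 4), as triples of codes. -/
def tabs_222_2 : List (Fin 3 → Fin 6 × Fin 6) :=
  [![(4, 4), (5, 5), (5, 5)],
   ![(4, 5), (4, 5), (5, 5)],
   ![(4, 5), (5, 5), (4, 5)],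
   ![(5, 5), (4, 4), (5, 5)],
   ![(5, 5), (4, 5), (4, 5)],
   ![(5, 5), (5, 5), (4, 4)]]

/-- Weights and integer vectors of a decomposition into squares. -/
def vecs_222_2 : List (ℤ × List ℤ) :=
  [(1, [0, 0, 0, 0, 0, 0, 0, 0, 0, 0, 0, 0, 0, 0, 0, 0, 0, 0, 7, 2, -9]),
   (24, [0, 0, 0, 0, 0, 0, 0, 0, 0, 0, 0, 0, 0, 0, 0, 0, 0, 0, 0, 1, -1])]

theorem single_222_2 (s : (Fin 6 → ℕ) → ℝ)
    (h0 : ∑ x : CT 3 6 (fun _ => 2) ![0, 0, 0, 0, 2, 4], s (x.1 0) = 0) :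
    2 * ∑ x : CT 3 6 (fun _ => 2) ![0, 0, 0, 0, 2, 4], s (x.1 0) * s (x.1 1)
      ≤ ∑ x : CT 3 6 (fun _ => 2) ![0, 0, 0, 0, 2, 4], s (x.1 0) ^ 2 :=
  single_of_cert ![0, 0, 0, 0, 2, 4] tabs_222_2 (by decide +kernel) (by decide +kernel)
    (by decide +kernel) 42 7 (by norm_num) vecs_222_2 (by decide +kernel)
    (by decide +kernel) s h0

/-- The tables with row sums two and column sums (0, 0, 0, 0, 3, 3), as triples of codes. -/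
def tabs_222_3 : List (Fin 3 → Fin 6 × Fin 6) :=
  [![(4, 4), (4, 5), (5, 5)],
   ![(4, 4), (5, 5), (4, 5)],
   ![(4, 5), (4, 4), (5, 5)],
   ![(4, 5), (4, 5), (4, 5)],
   ![(4, 5), (5, 5), (4, 4)],
   ![(5, 5), (4, 4), (4, 5)],
   ![(5, 5), (4, 5), (4, 4)]]

/-- Weights and integer vectors of a decomposition into squares. -/
def vecs_222_3 : List (ℤ × List ℤ) :=
  [(2, [0, 0, 0, 0, 0, 0, 0, 0, 0, 0, 0, 0, 0, 0, 0, 0, 0, 0, 9, -4, -5]),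
   (112, [0, 0, 0, 0, 0, 0, 0, 0, 0, 0, 0, 0, 0, 0, 0, 0, 0, 0, 0, 1, -1])]

theorem single_222_3 (s : (Fin 6 → ℕ) → ℝ)
    (h0 : ∑ x : CT 3 6 (fun _ => 2) ![0, 0, 0, 0, 3, 3], s (x.1 0) = 0) :
    2 * ∑ x : CT 3 6 (fun _ => 2) ![0, 0, 0, 0, 3, 3], s (x.1 0) * s (x.1 1)
      ≤ ∑ x : CT 3 6 (fun _ => 2) ![0, 0, 0, 0, 3, 3], s (x.1 0) ^ 2 :=
  single_of_cert ![0, 0, 0, 0, 3, 3] tabs_222_3 (by decide +kernel) (by decide +kernel)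
    (by decide +kernel) 63 9 (by norm_num) vecs_222_3 (by decide +kernel)
    (by decide +kernel) s h0

/-- The tables with row sums two and column sums (0, 0, 0, 1, 1, 4), as triples of codes. -/
def tabs_222_4 : List (Fin 3 → Fin 6 × Fin 6) :=
  [![(3, 4), (5, 5), (5, 5)],
   ![(3, 5), (4, 5), (5, 5)],
   ![(3, 5), (5, 5), (4, 5)],
   ![(4, 5), (3, 5), (5, 5)],
   ![(4, 5), (5, 5), (3, 5)],
   ![(5, 5), (3, 4), (5, 5)],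
   ![(5, 5), (3, 5), (4, 5)],
   ![(5, 5), (4, 5), (3, 5)],
   ![(5, 5), (5, 5), (3, 4)]]

/-- Weights and integer vectors of a decomposition into squares. -/
def vecs_222_4 : List (ℤ × List ℤ) :=
  [(2, [0, 0, 0, 0, 0, 0, 0, 0, 0, 0, 0, 0, 0, 0, 0, 0, 5, 1, 0, 1, -7]),
   (12, [0, 0, 0, 0, 0, 0, 0, 0, 0, 0, 0, 0, 0, 0, 0, 0, 0, 3, 0, -2, -1]),
   (60, [0, 0, 0, 0, 0, 0, 0, 0, 0, 0, 0, 0, 0, 0, 0, 0, 0, 0, 0, 1, -1])]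

theorem single_222_4 (s : (Fin 6 → ℕ) → ℝ)
    (h0 : ∑ x : CT 3 6 (fun _ => 2) ![0, 0, 0, 1, 1, 4], s (x.1 0) = 0) :
    2 * ∑ x : CT 3 6 (fun _ => 2) ![0, 0, 0, 1, 1, 4], s (x.1 0) * s (x.1 1)
      ≤ ∑ x : CT 3 6 (fun _ => 2) ![0, 0, 0, 1, 1, 4], s (x.1 0) ^ 2 :=
  single_of_cert ![0, 0, 0, 1, 1, 4] tabs_222_4 (by decide +kernel) (by decide +kernel)
    (by decide +kernel) 45 5 (by norm_num) vecs_222_4 (by decide +kernel)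
    (by decide +kernel) s h0

/-- The tables with row sums two and column sums (0, 0, 0, 1, 2, 3), as triples of codes. -/
def tabs_222_5 : List (Fin 3 → Fin 6 × Fin 6) :=
  [![(3, 4), (4, 5), (5, 5)],
   ![(3, 4), (5, 5), (4, 5)],
   ![(3, 5), (4, 4), (5, 5)],
   ![(3, 5), (4, 5), (4, 5)],
   ![(3, 5), (5, 5), (4, 4)],
   ![(4, 4), (3, 5), (5, 5)],
   ![(4, 4), (5, 5), (3, 5)],
   ![(4, 5), (3, 4), (5, 5)],
   ![(4, 5), (3, 5), (4, 5)],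
   ![(4, 5), (4, 5), (3, 5)],
   ![(4, 5), (5, 5), (3, 4)],
   ![(5, 5), (3, 4), (4, 5)],
   ![(5, 5), (3, 5), (4, 4)],
   ![(5, 5), (4, 4), (3, 5)],
   ![(5, 5), (4, 5), (3, 4)]]

/-- Weights and integer vectors of a decomposition into squares. -/
def vecs_222_5 : List (ℤ × List ℤ) :=
  [(22, [0, 0, 0, 0, 0, 0, 0, 0, 0, 0, 0, 0, 0, 0, 0, 0, 17, 3, 2, -11, -11]),
   (44, [0, 0, 0, 0, 0, 0, 0, 0, 0, 0, 0, 0, 0, 0, 0, 0, 0, 15, -7, -4, -4]),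
   (34, [0, 0, 0, 0, 0, 0, 0, 0, 0, 0, 0, 0, 0, 0, 0, 0, 0, 0, 11, 2, -13]),
   (5100, [0, 0, 0, 0, 0, 0, 0, 0, 0, 0, 0, 0, 0, 0, 0, 0, 0, 0, 0, 1, -1])]

theorem single_222_5 (s : (Fin 6 → ℕ) → ℝ)
    (h0 : ∑ x : CT 3 6 (fun _ => 2) ![0, 0, 0, 1, 2, 3], s (x.1 0) = 0) :
    2 * ∑ x : CT 3 6 (fun _ => 2) ![0, 0, 0, 1, 2, 3], s (x.1 0) * s (x.1 1)
      ≤ ∑ x : CT 3 6 (fun _ => 2) ![0, 0, 0, 1, 2, 3], s (x.1 0) ^ 2 :=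
  single_of_cert ![0, 0, 0, 1, 2, 3] tabs_222_5 (by decide +kernel) (by decide +kernel)
    (by decide +kernel) 2805 187 (by norm_num) vecs_222_5 (by decide +kernel)
    (by decide +kernel) s h0

/-- The tables with row sums two and column sums (0, 0, 0, 2, 2, 2), as triples of codes. -/
def tabs_222_6 : List (Fin 3 → Fin 6 × Fin 6) :=
  [![(3, 3), (4, 4), (5, 5)],
   ![(3, 3), (4, 5), (4, 5)],
   ![(3, 3), (5, 5), (4, 4)],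
   ![(3, 4), (3, 4), (5, 5)],
   ![(3, 4), (3, 5), (4, 5)],
   ![(3, 4), (4, 5), (3, 5)],
   ![(3, 4), (5, 5), (3, 4)],
   ![(3, 5), (3, 4), (4, 5)],
   ![(3, 5), (3, 5), (4, 4)],
   ![(3, 5), (4, 4), (3, 5)],
   ![(3, 5), (4, 5), (3, 4)],
   ![(4, 4), (3, 3), (5, 5)],
   ![(4, 4), (3, 5), (3, 5)],
   ![(4, 4), (5, 5), (3, 3)],
   ![(4, 5), (3, 3), (4, 5)],
   ![(4, 5), (3, 4), (3, 5)],
   ![(4, 5), (3, 5), (3, 4)],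
   ![(4, 5), (4, 5), (3, 3)],
   ![(5, 5), (3, 3), (4, 4)],
   ![(5, 5), (3, 4), (3, 4)],
   ![(5, 5), (4, 4), (3, 3)]]

/-- Weights and integer vectors of a decomposition into squares. -/
def vecs_222_6 : List (ℤ × List ℤ) :=
  [(52, [0, 0, 0, 0, 0, 0, 0, 0, 0, 0, 0, 0, 0, 0, 0, 24, 4, 4, -11, -10, -11]),
   (91, [0, 0, 0, 0, 0, 0, 0, 0, 0, 0, 0, 0, 0, 0, 0, 0, 16, -8, 5, -6, -7]),
   (273, [0, 0, 0, 0, 0, 0, 0, 0, 0, 0, 0, 0, 0, 0, 0, 0, 0, 8, -3, -6, 1]),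
   (112, [0, 0, 0, 0, 0, 0, 0, 0, 0, 0, 0, 0, 0, 0, 0, 0, 0, 0, 13, -2, -11]),
   (5376, [0, 0, 0, 0, 0, 0, 0, 0, 0, 0, 0, 0, 0, 0, 0, 0, 0, 0, 0, 1, -1])]

theorem single_222_6 (s : (Fin 6 → ℕ) → ℝ)
    (h0 : ∑ x : CT 3 6 (fun _ => 2) ![0, 0, 0, 2, 2, 2], s (x.1 0) = 0) :
    2 * ∑ x : CT 3 6 (fun _ => 2) ![0, 0, 0, 2, 2, 2], s (x.1 0) * s (x.1 1)
      ≤ ∑ x : CT 3 6 (fun _ => 2) ![0, 0, 0, 2, 2, 2], s (x.1 0) ^ 2 :=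
  single_of_cert ![0, 0, 0, 2, 2, 2] tabs_222_6 (by decide +kernel) (by decide +kernel)
    (by decide +kernel) 8736 416 (by norm_num) vecs_222_6 (by decide +kernel)
    (by decide +kernel) s h0

/-- The tables with row sums two and column sums (0, 0, 1, 1, 1, 3), as triples of codes. -/
def tabs_222_7 : List (Fin 3 → Fin 6 × Fin 6) :=
  [![(2, 3), (4, 5), (5, 5)],
   ![(2, 3), (5, 5), (4, 5)],
   ![(2, 4), (3, 5), (5, 5)],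
   ![(2, 4), (5, 5), (3, 5)],
   ![(2, 5), (3, 4), (5, 5)],
   ![(2, 5), (3, 5), (4, 5)],
   ![(2, 5), (4, 5), (3, 5)],
   ![(2, 5), (5, 5), (3, 4)],
   ![(3, 4), (2, 5), (5, 5)],
   ![(3, 4), (5, 5), (2, 5)],
   ![(3, 5), (2, 4), (5, 5)],
   ![(3, 5), (2, 5), (4, 5)],
   ![(3, 5), (4, 5), (2, 5)],
   ![(3, 5), (5, 5), (2, 4)],
   ![(4, 5), (2, 3), (5, 5)],
   ![(4, 5), (2, 5), (3, 5)],
   ![(4, 5), (3, 5), (2, 5)],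
   ![(4, 5), (5, 5), (2, 3)],
   ![(5, 5), (2, 3), (4, 5)],
   ![(5, 5), (2, 4), (3, 5)],
   ![(5, 5), (2, 5), (3, 4)],
   ![(5, 5), (3, 4), (2, 5)],
   ![(5, 5), (3, 5), (2, 4)],
   ![(5, 5), (4, 5), (2, 3)]]

/-- Weights and integer vectors of a decomposition into squares. -/
def vecs_222_7 : List (ℤ × List ℤ) :=
  [(28, [0, 0, 0, 0, 0, 0, 0, 0, 0, 0, 0, 0, 13, 1, 2, 0, 1, 2, 0, -10, -9]),
   (24, [0, 0, 0, 0, 0, 0, 0, 0, 0, 0, 0, 0, 0, 14, 2, 0, 1, -11, 0, 3, -9]),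
   (156, [0, 0, 0, 0, 0, 0, 0, 0, 0, 0, 0, 0, 0, 0, 8, 0, -3, -2, 0, -2, -1]),
   (3276, [0, 0, 0, 0, 0, 0, 0, 0, 0, 0, 0, 0, 0, 0, 0, 0, 1, 0, 0, 0, -1]),
   (728, [0, 0, 0, 0, 0, 0, 0, 0, 0, 0, 0, 0, 0, 0, 0, 0, 0, 3, 0, -1, -2]),
   (5824, [0, 0, 0, 0, 0, 0, 0, 0, 0, 0, 0, 0, 0, 0, 0, 0, 0, 0, 0, 1, -1])]

theorem single_222_7 (s : (Fin 6 → ℕ) → ℝ)
    (h0 : ∑ x : CT 3 6 (fun _ => 2) ![0, 0, 1, 1, 1, 3], s (x.1 0) = 0) :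
    2 * ∑ x : CT 3 6 (fun _ => 2) ![0, 0, 1, 1, 1, 3], s (x.1 0) * s (x.1 1)
      ≤ ∑ x : CT 3 6 (fun _ => 2) ![0, 0, 1, 1, 1, 3], s (x.1 0) ^ 2 :=
  single_of_cert ![0, 0, 1, 1, 1, 3] tabs_222_7 (by decide +kernel) (by decide +kernel)
    (by decide +kernel) 2184 91 (by norm_num) vecs_222_7 (by decide +kernel)
    (by decide +kernel) s h0

/-- The tables with row sums two and column sums (0, 0, 1, 1, 2, 2), as triples of codes. -/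
def tabs_222_8 : List (Fin 3 → Fin 6 × Fin 6) :=
  [![(2, 3), (4, 4), (5, 5)],
   ![(2, 3), (4, 5), (4, 5)],
   ![(2, 3), (5, 5), (4, 4)],
   ![(2, 4), (3, 4), (5, 5)],
   ![(2, 4), (3, 5), (4, 5)],
   ![(2, 4), (4, 5), (3, 5)],
   ![(2, 4), (5, 5), (3, 4)],
   ![(2, 5), (3, 4), (4, 5)],
   ![(2, 5), (3, 5), (4, 4)],
   ![(2, 5), (4, 4), (3, 5)],
   ![(2, 5), (4, 5), (3, 4)],
   ![(3, 4), (2, 4), (5, 5)],
   ![(3, 4), (2, 5), (4, 5)],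
   ![(3, 4), (4, 5), (2, 5)],
   ![(3, 4), (5, 5), (2, 4)],
   ![(3, 5), (2, 4), (4, 5)],
   ![(3, 5), (2, 5), (4, 4)],
   ![(3, 5), (4, 4), (2, 5)],
   ![(3, 5), (4, 5), (2, 4)],
   ![(4, 4), (2, 3), (5, 5)],
   ![(4, 4), (2, 5), (3, 5)],
   ![(4, 4), (3, 5), (2, 5)],
   ![(4, 4), (5, 5), (2, 3)],
   ![(4, 5), (2, 3), (4, 5)],
   ![(4, 5), (2, 4), (3, 5)],
   ![(4, 5), (2, 5), (3, 4)],
   ![(4, 5), (3, 4), (2, 5)],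
   ![(4, 5), (3, 5), (2, 4)],
   ![(4, 5), (4, 5), (2, 3)],
   ![(5, 5), (2, 3), (4, 4)],
   ![(5, 5), (2, 4), (3, 4)],
   ![(5, 5), (3, 4), (2, 4)],
   ![(5, 5), (4, 4), (2, 3)]]

/-- Weights and integer vectors of a decomposition into squares. -/
def vecs_222_8 : List (ℤ × List ℤ) :=
  [(11020, [0, 0, 0, 0, 0, 0, 0, 0, 0, 0, 0, 0, 18, 2, 2, 0, 2, 2, -9, -8, -9]),
   (12122, [0, 0, 0, 0, 0, 0, 0, 0, 0, 0, 0, 0, 0, 20, 2, 0, -7, -7, 3, -5, -6]),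
   (9918, [0, 0, 0, 0, 0, 0, 0, 0, 0, 0, 0, 0, 0, 0, 22, 0, -7, -7, -7, -5, 4]),
   (2610, [0, 0, 0, 0, 0, 0, 0, 0, 0, 0, 0, 0, 0, 0, 0, 0, 38, -6, 5, -20, -17]),
   (14355, [0, 0, 0, 0, 0, 0, 0, 0, 0, 0, 0, 0, 0, 0, 0, 0, 0, 16, -7, -10, 1]),
   (3135, [0, 0, 0, 0, 0, 0, 0, 0, 0, 0, 0, 0, 0, 0, 0, 0, 0, 0, 29, -10, -19]),
   (1504800, [0, 0, 0, 0, 0, 0, 0, 0, 0, 0, 0, 0, 0, 0, 0, 0, 0, 0, 0, 1, -1])]

theorem single_222_8 (s : (Fin 6 → ℕ) → ℝ)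
    (h0 : ∑ x : CT 3 6 (fun _ => 2) ![0, 0, 1, 1, 2, 2], s (x.1 0) = 0) :
    2 * ∑ x : CT 3 6 (fun _ => 2) ![0, 0, 1, 1, 2, 2], s (x.1 0) * s (x.1 1)
      ≤ ∑ x : CT 3 6 (fun _ => 2) ![0, 0, 1, 1, 2, 2], s (x.1 0) ^ 2 :=
  single_of_cert ![0, 0, 1, 1, 2, 2] tabs_222_8 (by decide +kernel) (by decide +kernel)
    (by decide +kernel) 1090980 33060 (by norm_num) vecs_222_8 (by decide +kernel)
    (by decide +kernel) s h0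

end Vale.Agent.Lib.P328.Small
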