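import Mathlib
import Vale.Agent.Lib.P328.RP.Defs

/-!
P328: tables with three rows, six columns and row sums one or two.

A row with sum one or two is coded by a pair of columns (`rowOf`, `idx`); a table is coded by a
triple of such pairs (`ok`).  Sums over the tables are sums over any finite set that lists the
admissible triples (`sum_tables`).
-/

namespace Vale.Agent.Lib.P328.Small

open Finset
open Vale.Agent.Lib.P328.RP

/-- The row of `Fin 6 → ℕ` coded by the pair `p` of columns: one unit in column `p.1` and,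
when `ρ = 2`, one more unit in column `p.2`. -/
def rowOf (ρ : ℕ) (p : Fin 6 × Fin 6) : Fin 6 → ℕ :=
  fun j => (if j = p.1 then 1 else 0) + (if ρ = 2 ∧ j = p.2 then 1 else 0)

/-- The codes of the rows with sum `ρ`: the pairs with `p.1 ≤ p.2` when `ρ = 2`, the diagonal
pairs otherwise. -/
def idx (ρ : ℕ) : Finset (Fin 6 × Fin 6) :=
  univ.filter (fun p => if ρ = 2 then p.1 ≤ p.2 else p.1 = p.2)

theorem sum_rowOf_aux : ∀ ρ ∈ ({1, 2} : Finset ℕ), ∀ p ∈ idx ρ, ∑ j, rowOf ρ p j = ρ := by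
  decide +kernel

theorem rowOf_inj_aux : ∀ ρ ∈ ({1, 2} : Finset ℕ), ∀ p ∈ idx ρ, ∀ q ∈ idx ρ,
    rowOf ρ p = rowOf ρ q → p = q := by
  decide +kernel

theorem rowOf_surj_aux : ∀ ρ ∈ ({1, 2} : Finset ℕ), ∀ v : Fin 6 → Fin 3,
    (∑ j, (v j : ℕ)) = ρ → ∃ p ∈ idx ρ, ∀ j, rowOf ρ p j = (v j : ℕ) := by
  decide +kernel

theorem mem_one_two {ρ : ℕ} (h : ρ = 1 ∨ ρ = 2) : ρ ∈ ({1, 2} : Finset ℕ) := by
  rcases h with h | h <;> simp [h]

theorem sum_rowOf {ρ : ℕ} (h : ρ = 1 ∨ ρ = 2) {p : Fin 6 × Fin 6} (hp : p ∈ idx ρ) :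
    ∑ j, rowOf ρ p j = ρ :=
  sum_rowOf_aux ρ (mem_one_two h) p hp

theorem rowOf_inj {ρ : ℕ} (h : ρ = 1 ∨ ρ = 2) {p q : Fin 6 × Fin 6} (hp : p ∈ idx ρ)
    (hq : q ∈ idx ρ) (hpq : rowOf ρ p = rowOf ρ q) : p = q :=
  rowOf_inj_aux ρ (mem_one_two h) p hp q hq hpq

theorem rowOf_surj {ρ : ℕ} (h : ρ = 1 ∨ ρ = 2) (u : Fin 6 → ℕ) (hu : ∑ j, u j = ρ) :
    ∃ p ∈ idx ρ, rowOf ρ p = u := by
  have hle : ∀ j, u j < 3 := by
    intro j
    have h1 : u j ≤ ∑ j, u j :=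
      Finset.single_le_sum (f := u) (fun _ _ => Nat.zero_le _) (Finset.mem_univ j)
    rcases h with h | h <;> omega
  obtain ⟨p, hp, hpv⟩ := rowOf_surj_aux ρ (mem_one_two h) (fun j => ⟨u j, hle j⟩) hu
  exact ⟨p, hp, funext hpv⟩

/-- The triple `t` of codes is a table with row sums `r` and column sums `c`. -/
def ok (r : Fin 3 → ℕ) (c : Fin 6 → ℕ) (t : Fin 3 → Fin 6 × Fin 6) : Prop :=
  (∀ k, t k ∈ idx (r k)) ∧ ∀ j, ∑ k, rowOf (r k) (t k) j = c j

instance okDecidable (r : Fin 3 → ℕ) (c : Fin 6 → ℕ) (t : Fin 3 → Fin 6 × Fin 6) :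
    Decidable (ok r c t) :=
  inferInstanceAs (Decidable ((∀ k, t k ∈ idx (r k)) ∧ ∀ j, ∑ k, rowOf (r k) (t k) j = c j))

/-- The table coded by an admissible triple. -/
def tbl (r : Fin 3 → ℕ) (hr : ∀ k, r k = 1 ∨ r k = 2) (c : Fin 6 → ℕ)
    (t : Fin 3 → Fin 6 × Fin 6) (h : ok r c t) : CT 3 6 r c :=
  ⟨fun k => rowOf (r k) (t k), fun k => sum_rowOf (hr k) (h.1 k), h.2⟩

/-- Sums over the tables are sums over the admissible triples of codes. -/
theorem sum_tables (r : Fin 3 → ℕ) (hr : ∀ k, r k = 1 ∨ r k = 2) (c : Fin 6 → ℕ)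
    (Ls : Finset (Fin 3 → Fin 6 × Fin 6)) (hLs : ∀ t, t ∈ Ls ↔ ok r c t)
    (F : (Fin 3 → Fin 6 → ℕ) → ℝ) :
    ∑ x : CT 3 6 r c, F x.1 = ∑ t ∈ Ls, F (fun k => rowOf (r k) (t k)) := by
  symm
  refine Finset.sum_bij (fun t ht => tbl r hr c t ((hLs t).mp ht)) (fun _ _ => mem_univ _)
    ?_ ?_ (fun _ _ => rfl)
  · intro t ht t' ht' h
    have h1 : (fun k => rowOf (r k) (t k)) = fun k => rowOf (r k) (t' k) :=
      congrArg Subtype.val h
    funext k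
    exact rowOf_inj (hr k) (((hLs t).mp ht).1 k) (((hLs t').mp ht').1 k) (congrFun h1 k)
  · intro x _
    choose p hp hpx using fun k => rowOf_surj (hr k) (x.1 k) (x.2.1 k)
    have hok : ok r c p := by
      refine ⟨hp, fun j => ?_⟩
      rw [← x.2.2 j]
      exact Finset.sum_congr rfl (fun k _ => congrFun (hpx k) j)
    refine ⟨p, (hLs p).mpr hok, ?_⟩
    apply Subtype.ext
    funext k
    exact hpx k

end Vale.Agent.Lib.P328.Small
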