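import Mathlib
import Vale.Agent.Lib.P328.helper26.SmallDefs

/-!
P328: the three-row inequality for a finite list of tables from a decomposition into squares.

States are pairs of a row index `k` and a code `p`: row `k` has the code `p`.  `inc t a` says that the table coded by
`t` has the state `a`.  If the integer matrix
`κ (2 diag d - G) + τ (blockwise d dᵀ)`, with `G a b = ∑ t, inc t a * inc t b` and
`d a = ∑ t, inc t a`, is a nonnegative combination of squares of integer linear forms, then the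
sum over the tables of the square of `∑ k, S (k, t k)` is at most twice the sum of
`∑ k, S (k, t k) ^ 2` for every `S` whose three row sums vanish.
-/

namespace Vale.Agent.Lib.P328.Small

open Finset

/-- `1` if row `a.1` of the table coded by `t` has the code `a.2`, else `0`. -/
def inc (t : Fin 3 → Fin 6 × Fin 6) (a : Fin 3 × (Fin 6 × Fin 6)) : ℤ :=
  if t a.1 = a.2 then 1 else 0

section core

variable (T : Finset (Fin 3 × (Fin 6 × Fin 6))) (Ls : Finset (Fin 3 → Fin 6 × Fin 6))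

theorem sum_inc (t : Fin 3 → Fin 6 × Fin 6) (hT : ∀ k, (k, t k) ∈ T)
    (f : Fin 3 × (Fin 6 × Fin 6) → ℝ) :
    ∑ a ∈ T, (inc t a : ℝ) * f a = ∑ k, f (k, t k) := by
  have h1 : ∑ a ∈ T, (inc t a : ℝ) * f a = ∑ a, (inc t a : ℝ) * f a := by
    refine Finset.sum_subset (Finset.subset_univ T) (fun a _ ha => ?_)
    have h2 : t a.1 ≠ a.2 := by
      intro h
      apply ha
      have h3 := hT a.1
      rw [h] at h3
      exact h3
    simp [inc, h2]
  rw [h1, Fintype.sum_prod_type]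
  refine Finset.sum_congr rfl (fun k _ => ?_)
  simp [inc]

theorem sum_mul_sum_form (x y S : Fin 3 × (Fin 6 × Fin 6) → ℝ) :
    (∑ a ∈ T, x a * S a) * (∑ b ∈ T, y b * S b)
      = ∑ a ∈ T, ∑ b ∈ T, (x a * y b) * (S a * S b) := by
  rw [Finset.sum_mul_sum]
  refine Finset.sum_congr rfl (fun a _ => Finset.sum_congr rfl (fun b _ => ?_))
  ring

/-- The core inequality from a decomposition into squares. -/
theorem cert_core (hT : ∀ t ∈ Ls, ∀ k, (k, t k) ∈ T) (κ τ : ℤ) (hκ : 0 < κ) (m : ℕ)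
    (w : Fin m → ℤ) (hw : ∀ i, 0 ≤ w i) (v : Fin m → Fin 3 × (Fin 6 × Fin 6) → ℤ)
    (hid : ∀ a ∈ T, ∀ b ∈ T,
      κ * ((if a = b then 2 * ∑ t ∈ Ls, inc t a else 0) - ∑ t ∈ Ls, inc t a * inc t b)
        + τ * (if a.1 = b.1 then (∑ t ∈ Ls, inc t a) * (∑ t ∈ Ls, inc t b) else 0)
        = ∑ i, w i * (v i a * v i b))
    (S : Fin 3 × (Fin 6 × Fin 6) → ℝ) (hS : ∀ k, ∑ t ∈ Ls, S (k, t k) = 0) :
    ∑ t ∈ Ls, (∑ k, S (k, t k)) ^ 2 ≤ 2 * ∑ t ∈ Ls, ∑ k, S (k, t k) ^ 2 := by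
  classical
  set d : Fin 3 × (Fin 6 × Fin 6) → ℝ := fun a => ∑ t ∈ Ls, (inc t a : ℝ) with hd
  -- the identity over the reals
  have hidR : ∀ a ∈ T, ∀ b ∈ T,
      (κ : ℝ) * ((if a = b then 2 * d a else 0) - ∑ t ∈ Ls, (inc t a : ℝ) * (inc t b : ℝ))
        + (τ : ℝ) * (if a.1 = b.1 then d a * d b else 0)
        = ∑ i, (w i : ℝ) * ((v i a : ℝ) * (v i b : ℝ)) := by
    intro a ha b hb
    have h := congrArg (fun z : ℤ => (z : ℝ)) (hid a ha b hb)
    simp only [hd]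
    push_cast at h
    exact h
  -- the row constraints
  have hY : ∀ k : Fin 3, ∑ a ∈ T, (if a.1 = k then d a * S a else 0) = 0 := by
    intro k
    have h1 : ∑ a ∈ T, (if a.1 = k then d a * S a else 0)
        = ∑ t ∈ Ls, ∑ a ∈ T, (inc t a : ℝ) * (if a.1 = k then S a else 0) := by
      rw [Finset.sum_comm]
      refine Finset.sum_congr rfl (fun a _ => ?_)
      rw [← Finset.sum_mul]
      split_ifs
      · rfl
      · rw [mul_zero]
    have h2 : ∀ t ∈ Ls, ∑ a ∈ T, (inc t a : ℝ) * (if a.1 = k then S a else 0) = S (k, t k) := by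
      intro t ht
      rw [sum_inc T t (hT t ht) (fun a => if a.1 = k then S a else 0)]
      simp
    rw [h1, Finset.sum_congr rfl h2]
    exact hS k
  -- the two table sums
  have hA1 : ∑ a ∈ T, d a * S a ^ 2 = ∑ t ∈ Ls, ∑ k, S (k, t k) ^ 2 := by
    have h1 : ∑ a ∈ T, d a * S a ^ 2 = ∑ t ∈ Ls, ∑ a ∈ T, (inc t a : ℝ) * S a ^ 2 := by
      rw [Finset.sum_comm]
      refine Finset.sum_congr rfl (fun a _ => ?_)
      rw [← Finset.sum_mul]
    rw [h1]
    exact Finset.sum_congr rfl (fun t ht => sum_inc T t (hT t ht) (fun a => S a ^ 2))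
  have hA2 : ∑ a ∈ T, ∑ b ∈ T, (∑ t ∈ Ls, (inc t a : ℝ) * (inc t b : ℝ)) * (S a * S b)
      = ∑ t ∈ Ls, (∑ k, S (k, t k)) ^ 2 := by
    have h1 : ∀ t ∈ Ls, (∑ k, S (k, t k)) ^ 2
        = ∑ a ∈ T, ∑ b ∈ T, ((inc t a : ℝ) * (inc t b : ℝ)) * (S a * S b) := by
      intro t ht
      rw [← sum_inc T t (hT t ht) S, sq, sum_mul_sum_form]
    symm
    calc ∑ t ∈ Ls, (∑ k, S (k, t k)) ^ 2
        = ∑ t ∈ Ls, ∑ a ∈ T, ∑ b ∈ T, ((inc t a : ℝ) * (inc t b : ℝ)) * (S a * S b) :=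
          Finset.sum_congr rfl h1
      _ = ∑ a ∈ T, ∑ t ∈ Ls, ∑ b ∈ T, ((inc t a : ℝ) * (inc t b : ℝ)) * (S a * S b) :=
          Finset.sum_comm
      _ = ∑ a ∈ T, ∑ b ∈ T, (∑ t ∈ Ls, (inc t a : ℝ) * (inc t b : ℝ)) * (S a * S b) := by
          refine Finset.sum_congr rfl (fun a _ => ?_)
          rw [Finset.sum_comm]
          refine Finset.sum_congr rfl (fun b _ => ?_)
          rw [Finset.sum_mul]
  -- the penalty term vanishes
  have hpen : ∑ a ∈ T, ∑ b ∈ T, (if a.1 = b.1 then d a * d b else 0) * (S a * S b) = 0 := by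
    refine Finset.sum_eq_zero (fun a _ => ?_)
    have h1 : ∑ b ∈ T, (if a.1 = b.1 then d a * d b else 0) * (S a * S b)
        = (d a * S a) * ∑ b ∈ T, (if b.1 = a.1 then d b * S b else 0) := by
      rw [Finset.mul_sum]
      refine Finset.sum_congr rfl (fun b _ => ?_)
      by_cases h : a.1 = b.1
      · rw [if_pos h, if_pos h.symm]
        ring
      · rw [if_neg h, if_neg (fun h' => h h'.symm)]
        ring
    rw [h1, hY a.1, mul_zero]
  -- the diagonal term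
  have hdiag : ∑ a ∈ T, ∑ b ∈ T, (if a = b then 2 * d a else 0) * (S a * S b)
      = 2 * ∑ a ∈ T, d a * S a ^ 2 := by
    rw [Finset.mul_sum]
    refine Finset.sum_congr rfl (fun a ha => ?_)
    have h1 : ∑ b ∈ T, (if a = b then 2 * d a else 0) * (S a * S b)
        = ∑ b ∈ T, (if a = b then 2 * d a * (S a * S b) else 0) := by
      refine Finset.sum_congr rfl (fun b _ => ?_)
      split_ifs
      · rfl
      · rw [zero_mul]
    rw [h1, Finset.sum_ite_eq T a (fun b => 2 * d a * (S a * S b)), if_pos ha]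
    ring
  -- the squares
  have hsq : ∑ i, (w i : ℝ) * (∑ a ∈ T, (v i a : ℝ) * S a) ^ 2
      = (κ : ℝ) * (2 * ∑ t ∈ Ls, ∑ k, S (k, t k) ^ 2 - ∑ t ∈ Ls, (∑ k, S (k, t k)) ^ 2) := by
    have h1 : ∑ i, (w i : ℝ) * (∑ a ∈ T, (v i a : ℝ) * S a) ^ 2
        = ∑ a ∈ T, ∑ b ∈ T, (∑ i, (w i : ℝ) * ((v i a : ℝ) * (v i b : ℝ))) * (S a * S b) := by
      have h2 : ∀ i : Fin m, (w i : ℝ) * (∑ a ∈ T, (v i a : ℝ) * S a) ^ 2
          = ∑ a ∈ T, ∑ b ∈ T, ((w i : ℝ) * ((v i a : ℝ) * (v i b : ℝ))) * (S a * S b) := by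
        intro i
        rw [sq, sum_mul_sum_form, Finset.mul_sum]
        refine Finset.sum_congr rfl (fun a _ => ?_)
        rw [Finset.mul_sum]
        refine Finset.sum_congr rfl (fun b _ => ?_)
        ring
      rw [Finset.sum_congr rfl (fun i _ => h2 i), Finset.sum_comm]
      refine Finset.sum_congr rfl (fun a _ => ?_)
      rw [Finset.sum_comm]
      refine Finset.sum_congr rfl (fun b _ => ?_)
      rw [Finset.sum_mul]
    have h3 : ∑ a ∈ T, ∑ b ∈ T, (∑ i, (w i : ℝ) * ((v i a : ℝ) * (v i b : ℝ))) * (S a * S b)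
        = ∑ a ∈ T, ∑ b ∈ T,
            ((κ : ℝ) * ((if a = b then 2 * d a else 0) * (S a * S b))
              - (κ : ℝ) * ((∑ t ∈ Ls, (inc t a : ℝ) * (inc t b : ℝ)) * (S a * S b))
              + (τ : ℝ) * ((if a.1 = b.1 then d a * d b else 0) * (S a * S b))) := by
      refine Finset.sum_congr rfl (fun a ha => Finset.sum_congr rfl (fun b hb => ?_))
      rw [← hidR a ha b hb]
      ring
    rw [h1, h3]
    simp only [Finset.sum_add_distrib, Finset.sum_sub_distrib, ← Finset.mul_sum]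
    rw [hdiag, hA1, hA2, hpen]
    ring
  have hnn : 0 ≤ ∑ i, (w i : ℝ) * (∑ a ∈ T, (v i a : ℝ) * S a) ^ 2 :=
    Finset.sum_nonneg (fun i _ => mul_nonneg (by exact_mod_cast hw i) (sq_nonneg _))
  rw [hsq] at hnn
  have hκR : (0 : ℝ) < (κ : ℝ) := by exact_mod_cast hκ
  have := nonneg_of_mul_nonneg_right hnn hκR
  linarith

end core

end Vale.Agent.Lib.P328.Small
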