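import Mathlib
import Vale.Agent.Lib.P328.helper26.SmallCert

/-!
P328: the three-row inequality for 3 × 6 tables with row sums one or two, from a list of the
tables and a list of weighted integer vectors; all conditions are Boolean computations.
-/

namespace Vale.Agent.Lib.P328.Small

open Finset
open Vale.Agent.Lib.P328.RP

/-- The pairs `p.1 ≤ p.2` of columns, in the order of their positions. -/
def pairList : List (Fin 6 × Fin 6) :=
  [(0, 0), (0, 1), (0, 2), (0, 3), (0, 4), (0, 5), (1, 1), (1, 2), (1, 3), (1, 4), (1, 5),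
   (2, 2), (2, 3), (2, 4), (2, 5), (3, 3), (3, 4), (3, 5), (4, 4), (4, 5), (5, 5)]

/-- The position of a state in the vectors of a decomposition. -/
def code (a : Fin 3 × (Fin 6 × Fin 6)) : ℕ :=
  21 * a.1.val + (6 * a.2.1.val - a.2.1.val * (a.2.1.val - 1) / 2) + (a.2.2.val - a.2.1.val)

/-- The state at a position. -/
def decode (i : ℕ) : Fin 3 × (Fin 6 × Fin 6) :=
  (Fin.ofNat 3 (i / 21), pairList.getD (i % 21) (0, 0))

theorem decode_code : ∀ a : Fin 3 × (Fin 6 × Fin 6), a.2.1 ≤ a.2.2 →
    decode (code a) = a ∧ code a < 63 := by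
  decide +kernel

/-- The codes of the rows with sum `ρ`, as a list. -/
def idxL (ρ : ℕ) : List (Fin 6 × Fin 6) :=
  pairList.filter (fun p => decide (ρ = 2 ∨ p.1 = p.2))

theorem idx_facts : ∀ ρ ∈ ({1, 2} : Finset ℕ), ∀ p ∈ idx ρ, p.1 ≤ p.2 ∧ p ∈ idxL ρ := by
  decide +kernel

/-- The states: pairs of a row index `k` and `p`, a code of a row with sum `r k`. -/
def states (r : Fin 3 → ℕ) : Finset (Fin 3 × (Fin 6 × Fin 6)) :=
  univ.filter (fun a => a.2 ∈ idx (r a.1))

/-- The combination `∑ w * v[β] * v` of the vectors of a decomposition. -/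
def colSum : List (ℤ × List ℤ) → ℕ → ℕ → List ℤ
  | [], N, _ => List.replicate N 0
  | wv :: Cd, N, β =>
    if wv.2.getD β 0 = 0 then colSum Cd N β
    else List.zipWith (fun x y => x + y) (wv.2.map (fun x => wv.1 * wv.2.getD β 0 * x))
      (colSum Cd N β)

theorem length_colSum (Cd : List (ℤ × List ℤ)) (N β : ℕ) (hlen : ∀ wv ∈ Cd, wv.2.length = N) :
    (colSum Cd N β).length = N := by
  induction Cd with
  | nil => simp [colSum]
  | cons wv Cd ih =>
    have h1 := hlen wv List.mem_cons_self
    have h2 := ih (fun wv' h => hlen wv' (List.mem_cons_of_mem _ h))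
    unfold colSum
    split_ifs
    · exact h2
    · simp only [List.length_zipWith, List.length_map, h1, h2, min_self]

theorem getD_zipWith_add (u v : List ℤ) (h : u.length = v.length) (i : ℕ) :
    (List.zipWith (fun x y => x + y) u v).getD i 0 = u.getD i 0 + v.getD i 0 := by
  by_cases hi : i < u.length
  · have hv : i < v.length := h ▸ hi
    have hz : i < (List.zipWith (fun x y => x + y) u v).length := by
      rw [List.length_zipWith]
      omega
    rw [List.getD_eq_getElem _ _ hz, List.getD_eq_getElem _ _ hi, List.getD_eq_getElem _ _ hv,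
      List.getElem_zipWith]
  · have h1 : u.length ≤ i := not_lt.mp hi
    have h2 : v.length ≤ i := h ▸ h1
    have hz : (List.zipWith (fun x y => x + y) u v).length ≤ i := by
      rw [List.length_zipWith]
      omega
    rw [List.getD_eq_default _ _ hz, List.getD_eq_default _ _ h1, List.getD_eq_default _ _ h2,
      add_zero]

theorem getD_map_mul (c : ℤ) (v : List ℤ) (i : ℕ) :
    (v.map (fun x => c * x)).getD i 0 = c * v.getD i 0 := by
  by_cases hi : i < v.length
  · have hm : i < (v.map (fun x => c * x)).length := by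
      rw [List.length_map]
      exact hi
    rw [List.getD_eq_getElem _ _ hm, List.getD_eq_getElem _ _ hi, List.getElem_map]
  · have h1 : v.length ≤ i := not_lt.mp hi
    have hm : (v.map (fun x => c * x)).length ≤ i := by
      rw [List.length_map]
      exact h1
    rw [List.getD_eq_default _ _ hm, List.getD_eq_default _ _ h1, mul_zero]

theorem getD_colSum (Cd : List (ℤ × List ℤ)) (N β i : ℕ)
    (hlen : ∀ wv ∈ Cd, wv.2.length = N) :
    (colSum Cd N β).getD i 0
      = (Cd.map (fun wv => wv.1 * (wv.2.getD i 0 * wv.2.getD β 0))).sum := by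
  induction Cd with
  | nil =>
    simp only [colSum, List.map_nil, List.sum_nil]
    by_cases hi : i < N
    · rw [List.getD_eq_getElem _ _ (by rw [List.length_replicate]; exact hi),
        List.getElem_replicate]
    · rw [List.getD_eq_default _ _ (by rw [List.length_replicate]; exact not_lt.mp hi)]
  | cons wv Cd ih =>
    have h1 := hlen wv List.mem_cons_self
    have h2 : ∀ wv' ∈ Cd, wv'.2.length = N := fun wv' h => hlen wv' (List.mem_cons_of_mem _ h)
    have h3 : (wv.2.map (fun x => wv.1 * wv.2.getD β 0 * x)).length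
        = (colSum Cd N β).length := by
      rw [List.length_map, h1, length_colSum Cd N β h2]
    simp only [List.map_cons, List.sum_cons]
    unfold colSum
    by_cases hz : wv.2.getD β 0 = 0
    · rw [if_pos hz, ih h2, hz]
      ring
    · rw [if_neg hz, getD_zipWith_add _ _ h3, getD_map_mul, ih h2]
      ring

/-- The number of tables of the list with the state `a`. -/
def dOf (L : List (Fin 3 → Fin 6 × Fin 6)) (a : Fin 3 × (Fin 6 × Fin 6)) : ℤ :=
  (L.map (fun t => inc t a)).sum

/-- An entry of the integer form of the inequality. -/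
def lhsEntry (κ τ : ℤ) (L : List (Fin 3 → Fin 6 × Fin 6))
    (a b : Fin 3 × (Fin 6 × Fin 6)) : ℤ :=
  κ * ((if a = b then 2 * dOf L a else 0)
      - ((L.filter (fun t => decide (t b.1 = b.2))).map (fun t => inc t a)).sum)
    + τ * (if a.1 = b.1 then dOf L a * dOf L b else 0)

theorem sum_filter_inc (L : List (Fin 3 → Fin 6 × Fin 6)) (a b : Fin 3 × (Fin 6 × Fin 6)) :
    ((L.filter (fun t => decide (t b.1 = b.2))).map (fun t => inc t a)).sum
      = (L.map (fun t => inc t a * inc t b)).sum := by
  induction L with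
  | nil => simp
  | cons t L ih =>
    by_cases h : t b.1 = b.2
    · rw [List.filter_cons_of_pos (by simpa using h), List.map_cons, List.sum_cons,
        List.map_cons, List.sum_cons, ih]
      simp [inc, h]
    · rw [List.filter_cons_of_neg (by simpa using h), List.map_cons, List.sum_cons, ih]
      simp [inc, h]

/-- The Boolean check of the decomposition: every column of the integer form is the
corresponding combination of the vectors. -/
def checkId (κ τ : ℤ) (L : List (Fin 3 → Fin 6 × Fin 6)) (Cd : List (ℤ × List ℤ)) : Bool :=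
  (List.range 63).all (fun β => decide
    ((List.range 63).map (fun i => lhsEntry κ τ L (decode i) (decode β)) = colSum Cd 63 β))

/-- The code of a triple of pairs as one natural number. -/
def tcode (t : Fin 3 → Fin 6 × Fin 6) : ℕ :=
  code (0, t 0) + 63 * (code (1, t 1) + 63 * code (2, t 2))

theorem code_inj : ∀ a b : Fin 3 × (Fin 6 × Fin 6), a.2.1 ≤ a.2.2 → b.2.1 ≤ b.2.2 →
    code a = code b → a = b := by
  decide +kernel

theorem tcode_inj (t t' : Fin 3 → Fin 6 × Fin 6) (ht : ∀ k, (t k).1 ≤ (t k).2)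
    (ht' : ∀ k, (t' k).1 ≤ (t' k).2) (h : tcode t = tcode t') : t = t' := by
  unfold tcode at h
  have b0 := (decode_code (0, t 0) (ht 0)).2
  have b1 := (decode_code (1, t 1) (ht 1)).2
  have b0' := (decode_code (0, t' 0) (ht' 0)).2
  have b1' := (decode_code (1, t' 1) (ht' 1)).2
  have e0 : code (0, t 0) = code (0, t' 0) := by omega
  have e1 : code (1, t 1) = code (1, t' 1) := by omega
  have e2 : code (2, t 2) = code (2, t' 2) := by omega
  have f0 := congrArg Prod.snd (code_inj (0, t 0) (0, t' 0) (ht 0) (ht' 0) e0)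
  have f1 := congrArg Prod.snd (code_inj (1, t 1) (1, t' 1) (ht 1) (ht' 1) e1)
  have f2 := congrArg Prod.snd (code_inj (2, t 2) (2, t' 2) (ht 2) (ht' 2) e2)
  funext k
  fin_cases k
  · exact f0
  · exact f1
  · exact f2

/-- The Boolean check that the list contains every admissible triple. -/
def checkAll (r : Fin 3 → ℕ) (c : Fin 6 → ℕ) (L : List (Fin 3 → Fin 6 × Fin 6)) : Bool :=
  (idxL (r 0)).all (fun p0 => (idxL (r 1)).all (fun p1 =>
    !(decide (∀ j, rowOf (r 0) p0 j + rowOf (r 1) p1 j ≤ c j))
      || (idxL (r 2)).all (fun p2 =>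
        !(decide (∀ j, rowOf (r 0) p0 j + rowOf (r 1) p1 j + rowOf (r 2) p2 j = c j))
          || decide (tcode ![p0, p1, p2] ∈ L.map tcode))))

theorem entry_of_checkId (κ τ : ℤ) (L : List (Fin 3 → Fin 6 × Fin 6))
    (Cd : List (ℤ × List ℤ)) (hlen : ∀ wv ∈ Cd, wv.2.length = 63)
    (h : checkId κ τ L Cd = true) (a b : Fin 3 × (Fin 6 × Fin 6)) (ha : a.2.1 ≤ a.2.2)
    (hb : b.2.1 ≤ b.2.2) :
    lhsEntry κ τ L a b
      = (Cd.map (fun wv => wv.1 * (wv.2.getD (code a) 0 * wv.2.getD (code b) 0))).sum := by
  obtain ⟨ha1, ha2⟩ := decode_code a ha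
  obtain ⟨hb1, hb2⟩ := decode_code b hb
  unfold checkId at h
  rw [List.all_eq_true] at h
  have h1 := h (code b) (List.mem_range.mpr hb2)
  rw [decide_eq_true_eq] at h1
  have h2 : ((List.range 63).map
      (fun i => lhsEntry κ τ L (decode i) (decode (code b)))).getD (code a) 0
      = (colSum Cd 63 (code b)).getD (code a) 0 :=
    congrArg (fun l : List ℤ => l.getD (code a) 0) h1
  rw [getD_colSum Cd 63 (code b) (code a) hlen] at h2
  rw [← h2]
  have hl : code a < ((List.range 63).map
      (fun i => lhsEntry κ τ L (decode i) (decode (code b)))).length := by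
    rw [List.length_map, List.length_range]
    exact ha2
  rw [List.getD_eq_getElem _ _ hl, List.getElem_map, List.getElem_range, ha1, hb1]

/-- The three-row inequality for the tables with row sums `r` (each one or two) and column sums
`c`: `L` lists the tables, `Cd` lists weights and integer vectors whose weighted squares add up
to the integer form of the inequality. -/
theorem rows_of_cert (r : Fin 3 → ℕ) (hr : ∀ k, r k = 1 ∨ r k = 2) (c : Fin 6 → ℕ)
    (L : List (Fin 3 → Fin 6 × Fin 6)) (hndc : (L.map tcode).Nodup)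
    (hL1 : L.all (fun t => decide (ok r c t)) = true) (hL2 : checkAll r c L = true)
    (κ τ : ℤ) (hκ : 0 < κ) (Cd : List (ℤ × List ℤ))
    (hw : Cd.all (fun wv => decide (0 ≤ wv.1 ∧ wv.2.length = 63)) = true)
    (hid : checkId κ τ L Cd = true)
    (g : Fin 3 → (Fin 6 → ℕ) → ℝ) (h0 : ∀ k, ∑ x : CT 3 6 r c, g k (x.1 k) = 0) :
    ∑ x : CT 3 6 r c, (∑ k, g k (x.1 k)) ^ 2
      ≤ 2 * ∑ x : CT 3 6 r c, ∑ k, g k (x.1 k) ^ 2 := by
  classical
  have hnd : L.Nodup := List.Nodup.of_map tcode hndc
  have hw' : ∀ wv ∈ Cd, 0 ≤ wv.1 ∧ wv.2.length = 63 := by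
    intro wv hwv
    rw [List.all_eq_true] at hw
    exact of_decide_eq_true (hw wv hwv)
  have hL1' : ∀ t ∈ L, ok r c t := by
    intro t ht
    rw [List.all_eq_true] at hL1
    exact of_decide_eq_true (hL1 t ht)
  have hLs : ∀ t, t ∈ L.toFinset ↔ ok r c t := by
    intro t
    rw [List.mem_toFinset]
    constructor
    · exact hL1' t
    · intro h
      have h2 : ![t 0, t 1, t 2] = t := by
        funext k
        fin_cases k <;> rfl
      unfold checkAll at hL2
      rw [List.all_eq_true] at hL2
      have e0 := hL2 (t 0) (idx_facts (r 0) (mem_one_two (hr 0)) (t 0) (h.1 0)).2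
      rw [List.all_eq_true] at e0
      have e1 := e0 (t 1) (idx_facts (r 1) (mem_one_two (hr 1)) (t 1) (h.1 1)).2
      have hfit : ∀ j, rowOf (r 0) (t 0) j + rowOf (r 1) (t 1) j + rowOf (r 2) (t 2) j = c j := by
        intro j
        have h3 := h.2 j
        rw [Fin.sum_univ_three] at h3
        exact h3
      rw [Bool.or_eq_true, Bool.not_eq_true', decide_eq_false_iff_not] at e1
      rcases e1 with e1 | e1
      · exact absurd (fun j => by have := hfit j; omega) e1
      · rw [List.all_eq_true] at e1
        have e2 := e1 (t 2) (idx_facts (r 2) (mem_one_two (hr 2)) (t 2) (h.1 2)).2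
        rw [Bool.or_eq_true, Bool.not_eq_true', decide_eq_false_iff_not, decide_eq_true_eq,
          h2] at e2
        rcases e2 with e2 | e2
        · exact absurd hfit e2
        · obtain ⟨t', ht', hc'⟩ := List.mem_map.mp e2
          have hs : ∀ k, (t k).1 ≤ (t k).2 := fun k =>
            (idx_facts (r k) (mem_one_two (hr k)) (t k) (h.1 k)).1
          have hs' : ∀ k, (t' k).1 ≤ (t' k).2 := fun k =>
            (idx_facts (r k) (mem_one_two (hr k)) (t' k) ((hL1' t' ht').1 k)).1
          rw [← tcode_inj t' t hs' hs hc']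
          exact ht'
  have e1 : ∀ F : (Fin 3 → Fin 6 → ℕ) → ℝ,
      ∑ x : CT 3 6 r c, F x.1 = ∑ t ∈ L.toFinset, F (fun k => rowOf (r k) (t k)) :=
    sum_tables r hr c L.toFinset hLs
  have hS : ∀ k, ∑ t ∈ L.toFinset,
      (fun a : Fin 3 × (Fin 6 × Fin 6) => g a.1 (rowOf (r a.1) a.2)) (k, t k) = 0 := by
    intro k
    rw [← h0 k, e1 (fun y => g k (y k))]
  have hT : ∀ t ∈ L.toFinset, ∀ k, (k, t k) ∈ states r := by
    intro t ht k
    simp only [states, mem_filter, mem_univ, true_and]
    exact ((hLs t).mp ht).1 k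
  have hsorted : ∀ a ∈ states r, a.2.1 ≤ a.2.2 := by
    intro a ha
    simp only [states, mem_filter, mem_univ, true_and] at ha
    exact (idx_facts (r a.1) (mem_one_two (hr a.1)) a.2 ha).1
  rw [e1 (fun y => (∑ k, g k (y k)) ^ 2), e1 (fun y => ∑ k, g k (y k) ^ 2)]
  refine cert_core (states r) L.toFinset hT κ τ hκ Cd.length (fun i => (Cd[i.1]).1)
    (fun i => (hw' _ (List.getElem_mem _)).1) (fun i a => (Cd[i.1]).2.getD (code a) 0) ?_
    (fun a => g a.1 (rowOf (r a.1) a.2)) hS
  intro a ha b hb
  rw [List.sum_toFinset _ hnd, List.sum_toFinset _ hnd, List.sum_toFinset _ hnd,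
    Fin.sum_univ_fun_getElem Cd
      (fun wv => wv.1 * (wv.2.getD (code a) 0 * wv.2.getD (code b) 0))]
  rw [← entry_of_checkId κ τ L Cd (fun wv h => (hw' wv h).2) hid a b (hsorted a ha)
    (hsorted b hb)]
  unfold lhsEntry dOf
  rw [sum_filter_inc]

end Vale.Agent.Lib.P328.Small
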