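import Mathlib
import Vale.Agent.Lib.P328.helper26.SmallMain

/-!
P328: 3 × 6 tables with all three row sums equal to two: the inequality for one function of a
row, `2 ∑ s(x₀) s(x₁) ≤ ∑ s(x₀)²` for `∑ s(x₀) = 0`, from a list of the tables and a
decomposition into squares of the integer form `κ (D - A - Aᵀ) + τ d dᵀ`, where
`A p q` counts the tables with rows `p`, `q` in positions `0`, `1` and `d p` those with row `p`
in position `0`.
-/

namespace Vale.Agent.Lib.P328.Small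

open Finset
open Vale.Agent.Lib.P328.RP

section core

variable (T : Finset (Fin 6 × Fin 6)) (Ls : Finset (Fin 3 → Fin 6 × Fin 6))

theorem sum_inc_one (t : Fin 3 → Fin 6 × Fin 6) (k : Fin 3) (hT : t k ∈ T)
    (f : Fin 6 × Fin 6 → ℝ) : ∑ a ∈ T, (inc t (k, a) : ℝ) * f a = f (t k) := by
  have h1 : ∀ a ∈ T, (inc t (k, a) : ℝ) * f a = if t k = a then f a else 0 := by
    intro a _
    unfold inc
    split_ifs <;> simp
  rw [Finset.sum_congr rfl h1, Finset.sum_ite_eq T (t k) f, if_pos hT]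

theorem sum_mul_sum_form1 (x y S : Fin 6 × Fin 6 → ℝ) :
    (∑ a ∈ T, x a * S a) * (∑ b ∈ T, y b * S b)
      = ∑ a ∈ T, ∑ b ∈ T, (x a * y b) * (S a * S b) := by
  rw [Finset.sum_mul_sum]
  refine Finset.sum_congr rfl (fun a _ => Finset.sum_congr rfl (fun b _ => ?_))
  ring

/-- The inequality for one function of a row, from a decomposition into squares. -/
theorem cert_core1 (hT : ∀ t ∈ Ls, t 0 ∈ T ∧ t 1 ∈ T) (κ τ : ℤ) (hκ : 0 < κ) (m : ℕ)
    (w : Fin m → ℤ) (hw : ∀ i, 0 ≤ w i) (v : Fin m → Fin 6 × Fin 6 → ℤ)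
    (hid : ∀ a ∈ T, ∀ b ∈ T,
      κ * ((if a = b then ∑ t ∈ Ls, inc t (0, a) else 0)
          - (∑ t ∈ Ls, inc t (0, a) * inc t (1, b) + ∑ t ∈ Ls, inc t (0, b) * inc t (1, a)))
        + τ * ((∑ t ∈ Ls, inc t (0, a)) * (∑ t ∈ Ls, inc t (0, b)))
        = ∑ i, w i * (v i a * v i b))
    (S : Fin 6 × Fin 6 → ℝ) (hS : ∑ t ∈ Ls, S (t 0) = 0) :
    2 * ∑ t ∈ Ls, S (t 0) * S (t 1) ≤ ∑ t ∈ Ls, S (t 0) ^ 2 := by
  classical
  set d : Fin 6 × Fin 6 → ℝ := fun a => ∑ t ∈ Ls, (inc t (0, a) : ℝ) with hd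
  have hidR : ∀ a ∈ T, ∀ b ∈ T,
      (κ : ℝ) * ((if a = b then d a else 0)
          - (∑ t ∈ Ls, (inc t (0, a) : ℝ) * (inc t (1, b) : ℝ)
              + ∑ t ∈ Ls, (inc t (0, b) : ℝ) * (inc t (1, a) : ℝ)))
        + (τ : ℝ) * (d a * d b)
        = ∑ i, (w i : ℝ) * ((v i a : ℝ) * (v i b : ℝ)) := by
    intro a ha b hb
    have h := congrArg (fun z : ℤ => (z : ℝ)) (hid a ha b hb)
    simp only [hd]
    push_cast at h
    exact h
  have hY : ∑ a ∈ T, d a * S a = 0 := by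
    have h1 : ∑ a ∈ T, d a * S a = ∑ t ∈ Ls, ∑ a ∈ T, (inc t (0, a) : ℝ) * S a := by
      rw [Finset.sum_comm]
      refine Finset.sum_congr rfl (fun a _ => ?_)
      rw [← Finset.sum_mul]
    rw [h1, ← hS]
    exact Finset.sum_congr rfl (fun t ht => sum_inc_one T t 0 (hT t ht).1 S)
  have hA1 : ∑ a ∈ T, d a * S a ^ 2 = ∑ t ∈ Ls, S (t 0) ^ 2 := by
    have h1 : ∑ a ∈ T, d a * S a ^ 2 = ∑ t ∈ Ls, ∑ a ∈ T, (inc t (0, a) : ℝ) * S a ^ 2 := by
      rw [Finset.sum_comm]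
      refine Finset.sum_congr rfl (fun a _ => ?_)
      rw [← Finset.sum_mul]
    rw [h1]
    exact Finset.sum_congr rfl (fun t ht => sum_inc_one T t 0 (hT t ht).1 (fun a => S a ^ 2))
  have hA2 : ∑ a ∈ T, ∑ b ∈ T,
      (∑ t ∈ Ls, (inc t (0, a) : ℝ) * (inc t (1, b) : ℝ)) * (S a * S b)
      = ∑ t ∈ Ls, S (t 0) * S (t 1) := by
    have h1 : ∀ t ∈ Ls, S (t 0) * S (t 1)
        = ∑ a ∈ T, ∑ b ∈ T, ((inc t (0, a) : ℝ) * (inc t (1, b) : ℝ)) * (S a * S b) := by
      intro t ht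
      rw [← sum_inc_one T t 0 (hT t ht).1 S, ← sum_inc_one T t 1 (hT t ht).2 S,
        sum_mul_sum_form1]
    symm
    calc ∑ t ∈ Ls, S (t 0) * S (t 1)
        = ∑ t ∈ Ls, ∑ a ∈ T, ∑ b ∈ T,
            ((inc t (0, a) : ℝ) * (inc t (1, b) : ℝ)) * (S a * S b) :=
          Finset.sum_congr rfl h1
      _ = ∑ a ∈ T, ∑ t ∈ Ls, ∑ b ∈ T,
            ((inc t (0, a) : ℝ) * (inc t (1, b) : ℝ)) * (S a * S b) := Finset.sum_comm
      _ = ∑ a ∈ T, ∑ b ∈ T,
            (∑ t ∈ Ls, (inc t (0, a) : ℝ) * (inc t (1, b) : ℝ)) * (S a * S b) := by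
          refine Finset.sum_congr rfl (fun a _ => ?_)
          rw [Finset.sum_comm]
          refine Finset.sum_congr rfl (fun b _ => ?_)
          rw [Finset.sum_mul]
  have hA3 : ∑ a ∈ T, ∑ b ∈ T,
      (∑ t ∈ Ls, (inc t (0, b) : ℝ) * (inc t (1, a) : ℝ)) * (S a * S b)
      = ∑ t ∈ Ls, S (t 0) * S (t 1) := by
    rw [← hA2, Finset.sum_comm]
    refine Finset.sum_congr rfl (fun a _ => Finset.sum_congr rfl (fun b _ => ?_))
    ring
  have hdiag : ∑ a ∈ T, ∑ b ∈ T, (if a = b then d a else 0) * (S a * S b)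
      = ∑ a ∈ T, d a * S a ^ 2 := by
    refine Finset.sum_congr rfl (fun a ha => ?_)
    have h1 : ∑ b ∈ T, (if a = b then d a else 0) * (S a * S b)
        = ∑ b ∈ T, (if a = b then d a * (S a * S b) else 0) := by
      refine Finset.sum_congr rfl (fun b _ => ?_)
      split_ifs
      · rfl
      · rw [zero_mul]
    rw [h1, Finset.sum_ite_eq T a (fun b => d a * (S a * S b)), if_pos ha]
    ring
  have hpen : ∑ a ∈ T, ∑ b ∈ T, (d a * d b) * (S a * S b) = 0 := by
    rw [← sum_mul_sum_form1, hY, zero_mul]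
  have hsq : ∑ i, (w i : ℝ) * (∑ a ∈ T, (v i a : ℝ) * S a) ^ 2
      = (κ : ℝ) * (∑ t ∈ Ls, S (t 0) ^ 2 - 2 * ∑ t ∈ Ls, S (t 0) * S (t 1)) := by
    have h1 : ∑ i, (w i : ℝ) * (∑ a ∈ T, (v i a : ℝ) * S a) ^ 2
        = ∑ a ∈ T, ∑ b ∈ T, (∑ i, (w i : ℝ) * ((v i a : ℝ) * (v i b : ℝ))) * (S a * S b) := by
      have h2 : ∀ i : Fin m, (w i : ℝ) * (∑ a ∈ T, (v i a : ℝ) * S a) ^ 2
          = ∑ a ∈ T, ∑ b ∈ T, ((w i : ℝ) * ((v i a : ℝ) * (v i b : ℝ))) * (S a * S b) := by
        intro i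
        rw [sq, sum_mul_sum_form1, Finset.mul_sum]
        refine Finset.sum_congr rfl (fun a _ => ?_)
        rw [Finset.mul_sum]
        refine Finset.sum_congr rfl (fun b _ => ?_)
        ring
      rw [Finset.sum_congr rfl (fun i _ => h2 i), Finset.sum_comm]
      refine Finset.sum_congr rfl (fun a _ => ?_)
      rw [Finset.sum_comm]
      refine Finset.sum_congr rfl (fun b _ => ?_)
      rw [Finset.sum_mul]
    have h3 : ∑ a ∈ T, ∑ b ∈ T, (∑ i, (w i : ℝ) * ((v i a : ℝ) * (v i b : ℝ))) * (S a * S b)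
        = ∑ a ∈ T, ∑ b ∈ T,
            ((κ : ℝ) * ((if a = b then d a else 0) * (S a * S b))
              - (κ : ℝ) * ((∑ t ∈ Ls, (inc t (0, a) : ℝ) * (inc t (1, b) : ℝ)) * (S a * S b))
              - (κ : ℝ) * ((∑ t ∈ Ls, (inc t (0, b) : ℝ) * (inc t (1, a) : ℝ)) * (S a * S b))
              + (τ : ℝ) * ((d a * d b) * (S a * S b))) := by
      refine Finset.sum_congr rfl (fun a ha => Finset.sum_congr rfl (fun b hb => ?_))
      rw [← hidR a ha b hb]
      ring
    rw [h1, h3]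
    simp only [Finset.sum_add_distrib, Finset.sum_sub_distrib, ← Finset.mul_sum]
    rw [hdiag, hA1, hA2, hA3, hpen]
    ring
  have hnn : 0 ≤ ∑ i, (w i : ℝ) * (∑ a ∈ T, (v i a : ℝ) * S a) ^ 2 :=
    Finset.sum_nonneg (fun i _ => mul_nonneg (by exact_mod_cast hw i) (sq_nonneg _))
  rw [hsq] at hnn
  have hκR : (0 : ℝ) < (κ : ℝ) := by exact_mod_cast hκ
  have := nonneg_of_mul_nonneg_right hnn hκR
  linarith

end core

/-- The position of a pair `p.1 ≤ p.2` in `pairList`. -/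
def code1 (p : Fin 6 × Fin 6) : ℕ :=
  (6 * p.1.val - p.1.val * (p.1.val - 1) / 2) + (p.2.val - p.1.val)

theorem decode_code1 : ∀ p : Fin 6 × Fin 6, p.1 ≤ p.2 →
    pairList.getD (code1 p) (0, 0) = p ∧ code1 p < 21 := by
  decide +kernel

/-- The number of tables of the list whose row `0` has the code `a`. -/
def d0 (L : List (Fin 3 → Fin 6 × Fin 6)) (a : Fin 6 × Fin 6) : ℤ :=
  (L.map (fun t => inc t (0, a))).sum

/-- The number of tables of the list whose rows `0`, `1` have the codes `a`, `b`. -/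
def a01 (L : List (Fin 3 → Fin 6 × Fin 6)) (a b : Fin 6 × Fin 6) : ℤ :=
  ((L.filter (fun t => decide (t 0 = a))).map (fun t => inc t (1, b))).sum

/-- An entry of the integer form of the inequality for one function. -/
def lhsEntry1 (κ τ : ℤ) (L : List (Fin 3 → Fin 6 × Fin 6)) (a b : Fin 6 × Fin 6) : ℤ :=
  κ * ((if a = b then d0 L a else 0) - (a01 L a b + a01 L b a)) + τ * (d0 L a * d0 L b)

theorem a01_eq (L : List (Fin 3 → Fin 6 × Fin 6)) (a b : Fin 6 × Fin 6) :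
    a01 L a b = (L.map (fun t => inc t (0, a) * inc t (1, b))).sum := by
  unfold a01
  induction L with
  | nil => simp
  | cons t L ih =>
    by_cases h : t 0 = a
    · rw [List.filter_cons_of_pos (by simpa using h), List.map_cons, List.sum_cons,
        List.map_cons, List.sum_cons, ih]
      simp [inc, h]
    · rw [List.filter_cons_of_neg (by simpa using h), List.map_cons, List.sum_cons, ih]
      simp [inc, h]

/-- The Boolean check of the decomposition for one function. -/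
def checkId1 (κ τ : ℤ) (L : List (Fin 3 → Fin 6 × Fin 6)) (Cd : List (ℤ × List ℤ)) : Bool :=
  (List.range 21).all (fun β => decide
    ((List.range 21).map
      (fun i => lhsEntry1 κ τ L (pairList.getD i (0, 0)) (pairList.getD β (0, 0)))
      = colSum Cd 21 β))

theorem entry_of_checkId1 (κ τ : ℤ) (L : List (Fin 3 → Fin 6 × Fin 6))
    (Cd : List (ℤ × List ℤ)) (hlen : ∀ wv ∈ Cd, wv.2.length = 21)
    (h : checkId1 κ τ L Cd = true) (a b : Fin 6 × Fin 6) (ha : a.1 ≤ a.2) (hb : b.1 ≤ b.2) :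
    lhsEntry1 κ τ L a b
      = (Cd.map (fun wv => wv.1 * (wv.2.getD (code1 a) 0 * wv.2.getD (code1 b) 0))).sum := by
  obtain ⟨ha1, ha2⟩ := decode_code1 a ha
  obtain ⟨hb1, hb2⟩ := decode_code1 b hb
  unfold checkId1 at h
  rw [List.all_eq_true] at h
  have h1 := h (code1 b) (List.mem_range.mpr hb2)
  rw [decide_eq_true_eq] at h1
  have h2 : ((List.range 21).map (fun i => lhsEntry1 κ τ L (pairList.getD i (0, 0))
      (pairList.getD (code1 b) (0, 0)))).getD (code1 a) 0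
      = (colSum Cd 21 (code1 b)).getD (code1 a) 0 :=
    congrArg (fun l : List ℤ => l.getD (code1 a) 0) h1
  rw [getD_colSum Cd 21 (code1 b) (code1 a) hlen] at h2
  rw [← h2]
  have hl : code1 a < ((List.range 21).map (fun i => lhsEntry1 κ τ L
      (pairList.getD i (0, 0)) (pairList.getD (code1 b) (0, 0)))).length := by
    rw [List.length_map, List.length_range]
    exact ha2
  rw [List.getD_eq_getElem _ _ hl, List.getElem_map, List.getElem_range, ha1, hb1]

/-- The list `L` consists of the admissible triples. -/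
theorem mem_iff_ok (r : Fin 3 → ℕ) (hr : ∀ k, r k = 1 ∨ r k = 2) (c : Fin 6 → ℕ)
    (L : List (Fin 3 → Fin 6 × Fin 6))
    (hL1 : L.all (fun t => decide (ok r c t)) = true) (hL2 : checkAll r c L = true)
    (t : Fin 3 → Fin 6 × Fin 6) : t ∈ L ↔ ok r c t := by
  have hL1' : ∀ t ∈ L, ok r c t := by
    intro t ht
    rw [List.all_eq_true] at hL1
    exact of_decide_eq_true (hL1 t ht)
  constructor
  · exact hL1' t
  · intro h
    have h2 : ![t 0, t 1, t 2] = t := by
      funext k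
      fin_cases k <;> rfl
    unfold checkAll at hL2
    rw [List.all_eq_true] at hL2
    have e0 := hL2 (t 0) (idx_facts (r 0) (mem_one_two (hr 0)) (t 0) (h.1 0)).2
    rw [List.all_eq_true] at e0
    have e1 := e0 (t 1) (idx_facts (r 1) (mem_one_two (hr 1)) (t 1) (h.1 1)).2
    have hfit : ∀ j, rowOf (r 0) (t 0) j + rowOf (r 1) (t 1) j + rowOf (r 2) (t 2) j = c j := by
      intro j
      have h3 := h.2 j
      rw [Fin.sum_univ_three] at h3
      exact h3
    rw [Bool.or_eq_true, Bool.not_eq_true', decide_eq_false_iff_not] at e1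
    rcases e1 with e1 | e1
    · exact absurd (fun j => by have := hfit j; omega) e1
    · rw [List.all_eq_true] at e1
      have e2 := e1 (t 2) (idx_facts (r 2) (mem_one_two (hr 2)) (t 2) (h.1 2)).2
      rw [Bool.or_eq_true, Bool.not_eq_true', decide_eq_false_iff_not, decide_eq_true_eq,
        h2] at e2
      rcases e2 with e2 | e2
      · exact absurd hfit e2
      · obtain ⟨t', ht', hc'⟩ := List.mem_map.mp e2
        have hs : ∀ k, (t k).1 ≤ (t k).2 := fun k =>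
          (idx_facts (r k) (mem_one_two (hr k)) (t k) (h.1 k)).1
        have hs' : ∀ k, (t' k).1 ≤ (t' k).2 := fun k =>
          (idx_facts (r k) (mem_one_two (hr k)) (t' k) ((hL1' t' ht').1 k)).1
        rw [← tcode_inj t' t hs' hs hc']
        exact ht'

/-- The inequality for one function of a row, for the 3 × 6 tables with all row sums two and
column sums `c`: `L` lists the tables, `Cd` lists weights and integer vectors whose weighted
squares add up to the integer form of the inequality. -/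
theorem single_of_cert (c : Fin 6 → ℕ) (L : List (Fin 3 → Fin 6 × Fin 6))
    (hndc : (L.map tcode).Nodup)
    (hL1 : L.all (fun t => decide (ok (fun _ => 2) c t)) = true)
    (hL2 : checkAll (fun _ => 2) c L = true)
    (κ τ : ℤ) (hκ : 0 < κ) (Cd : List (ℤ × List ℤ))
    (hw : Cd.all (fun wv => decide (0 ≤ wv.1 ∧ wv.2.length = 21)) = true)
    (hid : checkId1 κ τ L Cd = true)
    (s : (Fin 6 → ℕ) → ℝ) (h0 : ∑ x : CT 3 6 (fun _ => 2) c, s (x.1 0) = 0) :
    2 * ∑ x : CT 3 6 (fun _ => 2) c, s (x.1 0) * s (x.1 1)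
      ≤ ∑ x : CT 3 6 (fun _ => 2) c, s (x.1 0) ^ 2 := by
  classical
  have hr : ∀ k : Fin 3, (fun _ : Fin 3 => 2) k = 1 ∨ (fun _ : Fin 3 => 2) k = 2 :=
    fun _ => Or.inr rfl
  have hnd : L.Nodup := List.Nodup.of_map tcode hndc
  have hw' : ∀ wv ∈ Cd, 0 ≤ wv.1 ∧ wv.2.length = 21 := by
    intro wv hwv
    rw [List.all_eq_true] at hw
    exact of_decide_eq_true (hw wv hwv)
  have hLs : ∀ t, t ∈ L.toFinset ↔ ok (fun _ => 2) c t := by
    intro t
    rw [List.mem_toFinset]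
    exact mem_iff_ok (fun _ => 2) hr c L hL1 hL2 t
  have e1 : ∀ F : (Fin 3 → Fin 6 → ℕ) → ℝ,
      ∑ x : CT 3 6 (fun _ => 2) c, F x.1 = ∑ t ∈ L.toFinset, F (fun k => rowOf 2 (t k)) :=
    sum_tables (fun _ => 2) hr c L.toFinset hLs
  have hS : ∑ t ∈ L.toFinset, (fun p : Fin 6 × Fin 6 => s (rowOf 2 p)) (t 0) = 0 := by
    rw [← h0, e1 (fun y => s (y 0))]
  have hT : ∀ t ∈ L.toFinset, t 0 ∈ idx 2 ∧ t 1 ∈ idx 2 := by
    intro t ht
    exact ⟨((hLs t).mp ht).1 0, ((hLs t).mp ht).1 1⟩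
  have hsorted : ∀ a ∈ idx 2, a.1 ≤ a.2 := fun a ha =>
    (idx_facts 2 (by decide) a ha).1
  rw [e1 (fun y => s (y 0) * s (y 1)), e1 (fun y => s (y 0) ^ 2)]
  refine cert_core1 (idx 2) L.toFinset hT κ τ hκ Cd.length (fun i => (Cd[i.1]).1)
    (fun i => (hw' _ (List.getElem_mem _)).1) (fun i a => (Cd[i.1]).2.getD (code1 a) 0) ?_
    (fun p => s (rowOf 2 p)) hS
  intro a ha b hb
  rw [List.sum_toFinset _ hnd, List.sum_toFinset _ hnd, List.sum_toFinset _ hnd,
    List.sum_toFinset _ hnd,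
    Fin.sum_univ_fun_getElem Cd
      (fun wv => wv.1 * (wv.2.getD (code1 a) 0 * wv.2.getD (code1 b) 0))]
  rw [← entry_of_checkId1 κ τ L Cd (fun wv h => (hw' wv h).2) hid a b (hsorted a ha)
    (hsorted b hb)]
  unfold lhsEntry1
  rw [a01_eq, a01_eq]
  rfl

end Vale.Agent.Lib.P328.Small
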